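import Vale.Agent.P166.Pen.Types

/-!
The free energy of a bounded potential converges if the penalised free energies have limits in the
weak sense of an upper bound for large penalties and a matching lower bound for every centre.
-/

open MeasureTheory ProbabilityTheory Filter Topology Finset

namespace Vale.Agent.P166.Pen

open Vale.Agent.P166 Vale.Agent.P166.Nested

variable {K N : ℕ}

/-- The law of the rows. -/
noncomputable def rowsLaw (N : ℕ) : Measure (Fin N → Fin N → ℝ) := Measure.pi fun _ => gs N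

instance rowsLaw_prob (N : ℕ) : IsProbabilityMeasure (rowsLaw N) := by
  unfold rowsLaw; infer_instance

/-- The law of the spins. -/
noncomputable def spinLaw (K N : ℕ) : Measure (Fin K → Fin N → ℝ) := Measure.pi fun _ => gs N

instance spinLaw_prob (K N : ℕ) : IsProbabilityMeasure (spinLaw K N) := by
  unfold spinLaw; infer_instance

/-- The vector field of a site. -/
noncomputable def rowField (τ : ℝ) (γ : Fin K → ℝ) (G : Fin N → Fin N → ℝ)
    (ω : Fin K → Fin N → ℝ) (i : Fin N) (k : Fin K) : ℝ :=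
  ∑ b : Fin N, (if (b : ℕ) < blk γ N k then G i b / √(N : ℝ) else 0) * (√τ * ω k b)

/-- The energy of the spins. -/
noncomputable def ene (τ : ℝ) (f : (Fin K → ℝ) → ℝ) (γ : Fin K → ℝ) (G : Fin N → Fin N → ℝ)
    (ω : Fin K → Fin N → ℝ) : ℝ :=
  ∑ i, f (rowField τ γ G ω i)

/-- Mean free energy with the self-overlaps penalised around `d` inside the cut. -/
noncomputable def freePen (τ : ℝ) (f : (Fin K → ℝ) → ℝ) (γ : Fin K → ℝ) (B lam : ℝ)
    (d : OIdx K → ℝ) (N : ℕ) : ℝ :=
  1 / (N : ℝ) * ∫ G, Real.log (zpen (spinLaw K N) (ene τ f γ G) (ovl τ γ) (cutSet B K N)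
    (lam * N) d) ∂rowsLaw N

/-- Weak limits of the penalised free energies for all large cuts. -/
def PenLimits (τ : ℝ) (f : (Fin K → ℝ) → ℝ) (γ : Fin K → ℝ) : Prop :=
  ∃ B0 : ℝ, ∀ B ≥ B0, ∃ g : (OIdx K → ℝ) → ℝ,
    (∀ κ L η : ℝ, 0 < κ → 0 < η → ∃ lam0 : ℝ, ∀ lam ≥ lam0, ∀ d, GoodCentre γ κ L d →
      ∀ᶠ N in atTop, freePen τ f γ B lam d N ≤ g d + η) ∧
    ∀ κ L η : ℝ, 0 < κ → 0 < η → ∀ d, GoodCentre γ κ L d →
      ∃ lam : ℝ, 0 ≤ lam ∧ ∀ᶠ N in atTop, g d - η ≤ freePen τ f γ B lam d N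

theorem free_rows (τ : ℝ) {f : (Fin K → ℝ) → ℝ} (hf : Continuous f) (γ : Fin K → ℝ) (N : ℕ) :
    Nested.free τ f γ N
      = 1 / (N : ℝ) * ∫ G, Real.log (∫ ω, Real.exp (ene τ f γ G ω) ∂spinLaw K N) ∂rowsLaw N := by
  have hm : Measurable fun G : Fin N → Fin N → ℝ =>
      Real.log (∫ ω, Real.exp (ene τ f γ G ω) ∂spinLaw K N) := by
    refine Measurable.log (StronglyMeasurable.integral_prod_right'
      (f := fun p : (Fin N → Fin N → ℝ) × (Fin K → Fin N → ℝ) => Real.exp (ene τ f γ p.1 p.2))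
      ?_).measurable
    refine (Real.continuous_exp.comp (continuous_finsetSum _ fun i _ => hf.comp
      (continuous_pi fun k => continuous_finsetSum _ fun b _ => ?_))).stronglyMeasurable
    split_ifs <;> fun_prop
  rw [Nested.free, rowsLaw, ← (measurePreserving_matT N).map_eq,
    integral_map (measurePreserving_matT N).measurable.aemeasurable hm.aestronglyMeasurable]
  refine congrArg _ (integral_congr_ae (ae_of_all _ fun g => ?_))
  simp only [zf, spinLaw, ene]
  refine congrArg _ (integral_congr_ae (ae_of_all _ fun ω => congrArg Real.exp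
    (Finset.sum_congr rfl fun i _ => congrArg f (funext fun k => ?_))))
  simp only [rowField, Matrix.mulVec, dotProduct, cols, blk, Pi.smul_apply, smul_eq_mul, ite_mul,
    zero_mul]
  exact Finset.sum_congr rfl fun b _ => by by_cases h : (b : ℕ) < ⌊γ k * (N : ℝ)⌋₊ <;> simp [h]

theorem measurable_ene (τ : ℝ) {f : (Fin K → ℝ) → ℝ} (hf : Continuous f) (γ : Fin K → ℝ) :
    Continuous fun p : (Fin N → Fin N → ℝ) × (Fin K → Fin N → ℝ) => ene τ f γ p.1 p.2 := by
  refine continuous_finsetSum _ fun i _ => hf.comp (continuous_pi fun k =>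
    continuous_finsetSum _ fun b _ => ?_)
  split_ifs <;> fun_prop

theorem measurable_eneG (τ : ℝ) {f : (Fin K → ℝ) → ℝ} (hf : Continuous f) (γ : Fin K → ℝ)
    (G : Fin N → Fin N → ℝ) : Measurable (ene τ f γ G) :=
  ((measurable_ene τ hf γ).comp (Continuous.prodMk continuous_const continuous_id)).measurable

theorem abs_ene_le {τ : ℝ} {f : (Fin K → ℝ) → ℝ} {b : ℝ} (hb : ∀ y, |f y| ≤ b) (γ : Fin K → ℝ)
    (G : Fin N → Fin N → ℝ) (ω : Fin K → Fin N → ℝ) : |ene τ f γ G ω| ≤ N * b := by
  refine (abs_sum_le_sum_abs _ _).trans ((Finset.sum_le_card_nsmul _ _ b fun i _ => hb _).trans_eq ?_)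
  simp

theorem ene_update {τ : ℝ} {f : (Fin K → ℝ) → ℝ} {b : ℝ} (hb : ∀ y, |f y| ≤ b) (γ : Fin K → ℝ)
    (G : Fin N → Fin N → ℝ) (i : Fin N) (y : Fin N → ℝ) (ω : Fin K → Fin N → ℝ) :
    |ene τ f γ (Function.update G i y) ω - ene τ f γ G ω| ≤ 2 * b := by
  have e : ∀ j, f (rowField τ γ (Function.update G i y) ω j) - f (rowField τ γ G ω j)
      = if j = i then f (rowField τ γ (Function.update G i y) ω i) - f (rowField τ γ G ω i) else 0 :=
    fun j => by
      split_ifs with h
      · rw [h]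
      · have : rowField τ γ (Function.update G i y) ω j = rowField τ γ G ω j := funext fun k => by
          simp [rowField, Function.update_of_ne h]
        rw [this, sub_self]
  rw [ene, ene, ← Finset.sum_sub_distrib, Finset.sum_congr rfl fun j _ => e j, Finset.sum_ite_eq',
    if_pos (mem_univ i)]
  refine (abs_sub _ _).trans ?_
  linarith [hb (rowField τ γ (Function.update G i y) ω i), hb (rowField τ γ G ω i)]

section

variable {τ : ℝ} {f : (Fin K → ℝ) → ℝ} {b : ℝ} (hf : Continuous f) (hb : ∀ y, |f y| ≤ b)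
  (γ : Fin K → ℝ) {B lam : ℝ} (hlam : 0 ≤ lam) (d : OIdx K → ℝ)

include hf hb hlam

omit hb hlam in
theorem measurable_log_zpen :
    Measurable fun G : Fin N → Fin N → ℝ =>
      Real.log (zpen (spinLaw K N) (ene τ f γ G) (ovl τ γ) (cutSet B K N) (lam * N) d) := by
  refine Measurable.log ?_
  unfold zpen
  refine (StronglyMeasurable.integral_prod_right'
    (f := fun p : (Fin N → Fin N → ℝ) × (Fin K → Fin N → ℝ) =>
      Real.exp (ene τ f γ p.1 p.2 - lam * N * ∑ i, (ovl τ γ p.2 i - d i) ^ 2))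
    (ν := (spinLaw K N).restrict (cutSet B K N)) ?_).measurable
  have := (measurable_ene (N := N) τ hf γ).measurable
  have := fun i => measurable_ovl (N := N) τ γ i
  exact Measurable.stronglyMeasurable (by fun_prop)

theorem zpen_facts (hτ : 0 ≤ τ) (hN : 0 < N) (hS : 0 < (spinLaw K N).real (cutSet B K N)) :
    ∃ C : ℝ, ∀ G : Fin N → Fin N → ℝ,
      0 < zpen (spinLaw K N) (ene τ f γ G) (ovl τ γ) (cutSet B K N) (lam * N) d ∧
      |Real.log (zpen (spinLaw K N) (ene τ f γ G) (ovl τ γ) (cutSet B K N) (lam * N) d)| ≤ C ∧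
      Real.log (zpen (spinLaw K N) (ene τ f γ G) (ovl τ γ) (cutSet B K N) (lam * N) d) ≤ N * b := by
  set P := ∑ i, (|d i| + τ * B) ^ 2
  set low := (spinLaw K N).real (cutSet B K N) * Real.exp (-(N * b) - lam * N * P)
  have hlow : 0 < low := mul_pos hS (Real.exp_pos _)
  refine ⟨|Real.log low| + |N * b|, fun G => ?_⟩
  have hκ : 0 ≤ lam * N := mul_nonneg hlam (Nat.cast_nonneg N)
  have hH := measurable_eneG τ hf γ G
  have h1 : low ≤ zpen (spinLaw K N) (ene τ f γ G) (ovl τ γ) (cutSet B K N) (lam * N) d := by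
    refine exp_le_zpen hH (abs_ene_le hb γ G) (measurable_ovl τ γ) hκ (measurableSet_cut B K N) d
      fun x hx => Finset.sum_le_sum fun i _ => ?_
    rw [← sq_abs]
    exact pow_le_pow_left₀ (abs_nonneg _) ((abs_sub _ _).trans
      (by linarith [abs_ovl_le hτ γ hN hx i])) 2
  have hpos := hlow.trans_le h1
  have h2 : zpen (spinLaw K N) (ene τ f γ G) (ovl τ γ) (cutSet B K N) (lam * N) d
      ≤ Real.exp (N * b) := (zpen_le_int (π := spinLaw K N) (S := cutSet B K N) hH
    (abs_ene_le hb γ G) (measurable_ovl τ γ) hκ d).trans ((integral_mono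
      (integrable_exp_energy hH (abs_ene_le hb γ G)) (integrable_const (Real.exp (N * b)))
      fun x => Real.exp_le_exp.2 (le_of_abs_le (abs_ene_le hb γ G x))).trans_eq (by simp))
  have h3 := Real.log_le_log hlow h1
  have h4 := Real.log_le_log hpos h2
  rw [Real.log_exp] at h4
  exact ⟨hpos, abs_le.2 ⟨by linarith [neg_abs_le (Real.log low), abs_nonneg ((N : ℝ) * b)],
    by linarith [le_abs_self ((N : ℝ) * b), abs_nonneg (Real.log low)]⟩, h4⟩

theorem dev_log_zpen (hb0 : 0 ≤ b) (hτ : 0 ≤ τ) (hN : 0 < N)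
    (hS : 0 < (spinLaw K N).real (cutSet B K N)) :
    let X := fun G : Fin N → Fin N → ℝ =>
      Real.log (zpen (spinLaw K N) (ene τ f γ G) (ovl τ γ) (cutSet B K N) (lam * N) d)
    Integrable X (rowsLaw N) ∧
      ∫ G, |X G - ∫ G', X G' ∂rowsLaw N| ∂rowsLaw N ≤ √(N : ℝ) * (2 * b) := by
  intro X
  obtain ⟨C, hC⟩ := zpen_facts hf hb γ hlam d hτ hN hS
  have hm : Measurable X := measurable_log_zpen hf γ d
  refine ⟨(integrable_const C).mono' hm.aestronglyMeasurable
    (ae_of_all _ fun G => (hC G).2.1), ?_⟩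
  refine dev_le_of_diff (μ := gs N) hm (fun G => (hC G).2.1) (by linarith) fun G i y => ?_
  have key : ∀ G G' : Fin N → Fin N → ℝ, (∀ ω, |ene τ f γ G ω - ene τ f γ G' ω| ≤ 2 * b) →
      X G - X G' ≤ 2 * b := fun G G' h => by
    have hκ : 0 ≤ lam * N := mul_nonneg hlam (Nat.cast_nonneg N)
    have hint : ∀ G, Integrable (fun x => Real.exp (ene τ f γ G x
        - lam * N * ∑ i, (ovl τ γ x i - d i) ^ 2)) (spinLaw K N) := fun G =>
      integrable_zpen (measurable_eneG τ hf γ G) (abs_ene_le hb γ G)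
        (measurable_ovl τ γ) hκ d
    have hle : zpen (spinLaw K N) (ene τ f γ G) (ovl τ γ) (cutSet B K N) (lam * N) d
        ≤ Real.exp (2 * b) * zpen (spinLaw K N) (ene τ f γ G') (ovl τ γ) (cutSet B K N)
            (lam * N) d := by
      rw [zpen, zpen, ← integral_const_mul]
      refine integral_mono (hint G).integrableOn ((hint G').integrableOn.const_mul _) fun x => ?_
      rw [← Real.exp_add, Real.exp_le_exp]
      linarith [(abs_le.1 (h x)).2]
    have := Real.log_le_log (hC G).1 hle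
    rw [Real.log_mul (Real.exp_pos _).ne' (hC G').1.ne', Real.log_exp] at this
    simp only [X]
    linarith
  have h1 := key G (Function.update G i y) fun ω =>
    (abs_sub_comm _ _).trans_le (ene_update hb γ G i y ω)
  exact abs_le.2 ⟨by linarith, key _ _ (ene_update hb γ G i y)⟩

theorem freePen_le (hb0 : 0 ≤ b) (hτ : 0 ≤ τ) (hN : 0 < N)
    (hS : 0 < (spinLaw K N).real (cutSet B K N)) :
    freePen τ f γ B lam d N ≤ b := by
  obtain ⟨C, hC⟩ := zpen_facts hf hb γ hlam d hτ hN hS
  have hi := (dev_log_zpen hf hb γ hlam d hb0 hτ hN hS).1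
  have h := (integral_mono hi (integrable_const ((N : ℝ) * b)) fun G => (hC G).2.2).trans_eq
    (by simp : ∫ _ : Fin N → Fin N → ℝ, (N : ℝ) * b ∂rowsLaw N = N * b)
  rw [freePen, one_div_mul_eq_div, div_le_iff₀ (Nat.cast_pos.2 hN)]
  linarith

end

section

variable {τ : ℝ} {f : (Fin K → ℝ) → ℝ} {b : ℝ}

theorem cut_eventually (b : ℝ) : ∃ B1 : ℝ, ∀ B ≥ B1, ∀ᶠ N : ℕ in atTop,
    2 * ((spinLaw K N).real (cutSet B K N)ᶜ * Real.exp (2 * (N * b))) ≤ 1 ∧
      0 < (spinLaw K N).real (cutSet B K N) := by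
  refine ⟨4 * (2 * |b| + 1 + K * |Real.log (chi (1 / 4))|), fun B hB => ?_⟩
  filter_upwards [eventually_ge_atTop 2] with N hN
  have hN' : (2 : ℝ) ≤ N := by exact_mod_cast hN
  have hchi : 0 < chi (1 / 4) := by unfold chi; positivity
  have hq : chi (1 / 4) ^ K * Real.exp (-(B / 4)) ≤ Real.exp (-(2 * |b| + 1)) := by
    rw [← Real.exp_log (pow_pos hchi K), Real.log_pow, ← Real.exp_add, Real.exp_le_exp]
    linarith [mul_le_mul_of_nonneg_left (le_abs_self (Real.log (chi (1 / 4)))) (Nat.cast_nonneg K)]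
  have htail : (spinLaw K N).real (cutSet B K N)ᶜ ≤ Real.exp (N * (-(2 * |b| + 1))) := by
    rw [Real.exp_nat_mul]
    exact (cut_tail B).trans (pow_le_pow_left₀ (by positivity) hq N)
  have hhalf : Real.exp (-(N : ℝ)) ≤ 1 / 2 := by
    rw [Real.exp_neg, one_div]
    exact inv_anti₀ two_pos (by linarith [Real.add_one_le_exp (N : ℝ)])
  constructor
  · have h := mul_le_mul_of_nonneg_right htail (Real.exp_pos (2 * (N * b))).le
    rw [← Real.exp_add] at h
    have : Real.exp (N * (-(2 * |b| + 1)) + 2 * (N * b)) ≤ Real.exp (-(N : ℝ)) := by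
      rw [Real.exp_le_exp]
      linarith [mul_le_mul_of_nonneg_left (le_abs_self b) (Nat.cast_nonneg N : (0 : ℝ) ≤ N)]
    linarith
  · have h := measureReal_compl (μ := spinLaw K N) (measurableSet_cut B K N)
    rw [probReal_univ] at h
    have h2 : Real.exp (N * (-(2 * |b| + 1))) ≤ Real.exp (-(N : ℝ)) := by
      rw [Real.exp_le_exp]
      nlinarith [abs_nonneg b]
    linarith

/-- Clean bounded centres which are not definite cost more than any bounded free energy. -/
theorem singular_cost (hτ : 0 < τ) (hf : Continuous f) (hb : ∀ y, |f y| ≤ b) (hb0 : 0 ≤ b)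
    {γ : Fin K → ℝ} (hγ : ∀ k, γ k ∈ Set.Ioo (0 : ℝ) 1) :
    ∃ κ lam1 : ℝ, 0 < κ ∧ 0 ≤ lam1 ∧ ∀ B L lam : ℝ, lam1 ≤ lam → ∀ d, Clean γ d →
      (∀ i, |d i| ≤ L) → ¬GoodCentre γ κ L d → ∀ᶠ N : ℕ in atTop,
        0 < (spinLaw K N).real (cutSet B K N) → freePen τ f γ B lam d N ≤ -(2 * b + 1) := by
  classical
  obtain ⟨a, ha, hocc⟩ := occupied_count fun k => ⟨(hγ k).1, (hγ k).2.le⟩
  set s : ℝ := Real.exp (2 * (3 * b + 3) / a) / 2
  have hs : 0 < s := by positivity
  set κ : ℝ := τ / (2 * s)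
  have hκ : 0 < κ := by positivity
  refine ⟨κ, (3 * b + 2) / κ ^ 2, hκ, by positivity, fun B L lam hlam d hcl hbd hbad => ?_⟩
  have hlam0 : 0 ≤ lam := le_trans (by positivity) hlam
  simp only [GoodCentre, hcl, hbd, true_and, implies_true, not_forall, not_le] at hbad
  obtain ⟨t, hto, v, hvs, hv⟩ := hbad
  set r := √(∑ k, v k ^ 2)
  have hr0 : 0 < ∑ k, v k ^ 2 := by
    refine lt_of_le_of_ne (Finset.sum_nonneg fun k _ => sq_nonneg _) fun h => ?_
    have hz : ∀ k, v k = 0 := fun k => by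
      simpa using (Finset.sum_eq_zero_iff_of_nonneg fun k _ => sq_nonneg (v k)).1 h.symm k (mem_univ k)
    simp [hz] at hv
  have hr : 0 < r := Real.sqrt_pos.2 hr0
  set u : Fin K → ℝ := fun k => v k / r
  have hu1 : ∑ k, u k ^ 2 = 1 := by
    simp only [u, div_pow, ← Finset.sum_div, r, Real.sq_sqrt hr0.le, div_self hr0.ne']
  have hus : ∀ k ∉ t, u k = 0 := fun k hk => by simp [u, hvs k hk]
  have hu : ∑ k, ∑ l, u k * u l * d (t, k, l) < κ := by
    have e : ∀ k l, u k * u l * d (t, k, l) = v k * v l * d (t, k, l) / r ^ 2 := fun k l => by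
      simp only [u]; field_simp
    simp only [e, ← Finset.sum_div]
    rw [div_lt_iff₀ (by positivity)]
    simpa [r, Real.sq_sqrt hr0.le] using hv
  filter_upwards [hocc, eventually_ge_atTop 1] with N hN hN1 hS
  have hN' : (0 : ℝ) < N := Nat.cast_pos.2 hN1
  set J := univ.filter fun j : Fin N => typ γ j = t
  set A := {ω : Fin K → Fin N → ℝ | ∑ j ∈ J, (∑ k, u k * ω k j) ^ 2 ≤ 2 * κ * N / τ}
  have hA : MeasurableSet A := measurableSet_le (by fun_prop) measurable_const
  have hfar : ∀ ω ∉ A, κ ^ 2 ≤ ∑ i, (ovl τ γ ω i - d i) ^ 2 := fun ω hω => by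
    have hq : ∑ k, ∑ l, u k * u l * ovl τ γ ω (t, k, l) = τ / N * ∑ j ∈ J, (∑ k, u k * ω k j) ^ 2 := by
      have e : ∀ k l, u k * u l * ovl τ γ ω (t, k, l)
          = τ / N * ∑ j ∈ J, (u k * ω k j) * (u l * ω l j) := fun k l => by
        simp only [ovl]
        split_ifs with h
        · rw [← mul_assoc, mul_comm (u k * u l), mul_assoc, Finset.mul_sum]
          exact congrArg _ (Finset.sum_congr rfl fun j _ => by ring)
        · rcases not_and_or.1 h with h | h <;> simp [hus _ h]
      simp only [e, ← Finset.mul_sum]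
      congr 1
      rw [Finset.sum_comm]
      simp only [sq, Finset.sum_mul_sum]
      rw [Finset.sum_congr rfl fun l _ => Finset.sum_comm]
      rw [Finset.sum_comm]
      refine Finset.sum_congr rfl fun j _ => ?_
      rw [Finset.sum_comm]
    have hbig : 2 * κ < ∑ k, ∑ l, u k * u l * ovl τ γ ω (t, k, l) := by
      rw [hq, div_mul_eq_mul_div, lt_div_iff₀ hN', ← div_lt_iff₀' hτ]
      exact not_le.1 hω
    have hdiff : κ < ∑ p : Fin K × Fin K, u p.1 * u p.2 * (ovl τ γ ω (t, p) - d (t, p)) := by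
      rw [Fintype.sum_prod_type]
      simp only [mul_sub, Finset.sum_sub_distrib]
      linarith
    have hcs := Finset.sum_mul_sq_le_sq_mul_sq univ (fun p : Fin K × Fin K => u p.1 * u p.2)
      fun p => ovl τ γ ω (t, p) - d (t, p)
    have hone : ∑ p : Fin K × Fin K, (u p.1 * u p.2) ^ 2 = 1 := by
      simp [Fintype.sum_prod_type, mul_pow, ← Finset.mul_sum, hu1]
    rw [hone, one_mul] at hcs
    refine (pow_le_pow_left₀ hκ.le hdiff.le 2).trans (hcs.trans ?_)
    rw [Fintype.sum_prod_type (f := fun i : OIdx K => (ovl τ γ ω i - d i) ^ 2)]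
    exact Finset.single_le_sum (f := fun t' => ∑ p : Fin K × Fin K, (ovl τ γ ω (t', p) - d (t', p)) ^ 2)
      (fun t' _ => Finset.sum_nonneg fun p _ => sq_nonneg _) (mem_univ t)
  have hPA : (spinLaw K N).real A ≤ Real.exp (-(3 * b + 2) * N) := by
    refine (singular_tail γ t hu1 hs.le _).trans ?_
    have hchi : 0 < chi (-s) := by unfold chi; exact inv_pos.2 (Real.sqrt_pos.2 (by linarith))
    have hlog : Real.log (chi (-s)) ≤ -((3 * b + 3) / a) := by
      rw [chi, Real.log_inv, Real.log_sqrt (by linarith), neg_le_neg_iff]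
      have h := Real.log_le_log (Real.exp_pos _)
        (show Real.exp (2 * (3 * b + 3) / a) ≤ 1 - 2 * -s by simp only [s]; linarith)
      rw [Real.log_exp] at h
      have e : 2 * (3 * b + 3) / a = 2 * ((3 * b + 3) / a) := by ring
      linarith
    have hneg : Real.log (chi (-s)) ≤ 0 := hlog.trans (neg_nonpos.2 (by positivity))
    rw [← Real.exp_log (pow_pos hchi _), Real.log_pow, ← Real.exp_add, Real.exp_le_exp]
    have hpre : s * (2 * κ * N / τ) = N := by simp only [κ]; field_simp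
    have h1 := mul_le_mul_of_nonpos_right (hN t hto) hneg
    have h2 := mul_le_mul_of_nonneg_left hlog (mul_nonneg ha.le hN'.le)
    have h3 : a * N * -((3 * b + 3) / a) = -(3 * b + 3) * N := by field_simp
    nlinarith
  have hlamA : Real.exp (-(lam * N * κ ^ 2)) ≤ Real.exp (-(3 * b + 2) * N) := by
    have h := mul_le_mul_of_nonneg_right ((div_le_iff₀ (by positivity)).1 hlam) hN'.le
    rw [Real.exp_le_exp]
    linarith
  obtain ⟨C, hC⟩ := zpen_facts hf hb γ hlam0 d hτ.le hN1 hS
  have hi := (dev_log_zpen hf hb γ hlam0 d hb0 hτ.le hN1 hS).1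
  have hpt : ∀ G, Real.log (zpen (spinLaw K N) (ene τ f γ G) (ovl τ γ) (cutSet B K N) (lam * N) d)
      ≤ -(2 * b + 1) * N := fun G => by
    have h := zpen_le_of_event (π := spinLaw K N) (S := cutSet B K N)
      (measurable_eneG τ hf γ G) (abs_ene_le hb γ G)
      (measurable_ovl τ γ) (mul_nonneg hlam0 hN'.le) d hA hfar
    refine (Real.log_le_log (hC G).1 (h.trans (mul_le_mul_of_nonneg_left (add_le_add hPA hlamA)
      (Real.exp_pos _).le))).trans ?_
    rw [← two_mul, Real.log_mul (Real.exp_pos _).ne' (by positivity),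
      Real.log_mul two_ne_zero (Real.exp_pos _).ne', Real.log_exp, Real.log_exp]
    have h2 : Real.log 2 ≤ 1 := by linarith [Real.log_le_sub_one_of_pos (two_pos : (0 : ℝ) < 2)]
    have h3 : (1 : ℝ) ≤ N := Nat.one_le_cast.2 hN1
    linarith
  rw [freePen, one_div_mul_eq_div, div_le_iff₀ hN']
  exact (integral_mono hi (integrable_const _) hpt).trans_eq (by simp)

/-- The free energy converges to the largest weak limit. -/
theorem free_limit_of_pen (hτ : 0 < τ) {γ : Fin K → ℝ} (hγ : ∀ k, γ k ∈ Set.Ioo (0 : ℝ) 1)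
    (hf : Continuous f) (hb : ∀ y, |f y| ≤ b) (h : PenLimits τ f γ) :
    ∃ L, Tendsto (Nested.free τ f γ) atTop (𝓝 L) := by
  classical
  have hb0 : 0 ≤ b := (abs_nonneg _).trans (hb 0)
  obtain ⟨B0, hB0⟩ := h
  obtain ⟨B1, hB1⟩ := cut_eventually (K := K) b
  obtain ⟨κ, lam1, hκ, hlam1, hsing⟩ := singular_cost hτ hf hb hb0 hγ
  set B := max B0 B1
  obtain ⟨g, hup, hlow⟩ := hB0 B (le_max_left _ _)
  have hcut := hB1 B (le_max_right _ _)
  set L := max (τ * B) 0 + 1
  set Sset := g '' {d | GoodCentre γ κ L d}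
  have hint : ∀ N, ∀ G : Fin N → Fin N → ℝ, Integrable (fun ω => Real.exp (ene τ f γ G ω))
      (spinLaw K N) := fun N G => integrable_exp_energy (measurable_eneG τ hf γ G) (abs_ene_le hb γ G)
  have hzb : ∀ N, ∀ G : Fin N → Fin N → ℝ,
      |Real.log (∫ ω, Real.exp (ene τ f γ G ω) ∂spinLaw K N)| ≤ N * b := fun N G => by
    have h1 : Real.exp (-(N * b)) ≤ ∫ ω, Real.exp (ene τ f γ G ω) ∂spinLaw K N :=
      le_of_eq_of_le (by simp) (integral_mono (integrable_const _) (hint N G)
        fun x => Real.exp_le_exp.2 (neg_le_of_abs_le (abs_ene_le hb γ G x)))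
    have h2 : ∫ ω, Real.exp (ene τ f γ G ω) ∂spinLaw K N ≤ Real.exp (N * b) :=
      (integral_mono (hint N G) (integrable_const _)
        fun x => Real.exp_le_exp.2 (le_of_abs_le (abs_ene_le hb γ G x))).trans_eq (by simp)
    have hpos := (Real.exp_pos _).trans_le h1
    refine abs_le.2 ⟨?_, (Real.log_le_iff_le_exp hpos).2 h2⟩
    exact (Real.le_log_iff_exp_le hpos).2 h1
  have hzi : ∀ N, Integrable (fun G => Real.log (∫ ω, Real.exp (ene τ f γ G ω) ∂spinLaw K N))
      (rowsLaw N) := fun N => (integrable_const ((N : ℝ) * b)).mono'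
    (Measurable.log ((Real.continuous_exp.comp (measurable_ene (N := N) τ hf γ)).stronglyMeasurable
      |>.integral_prod_right'.measurable)).aestronglyMeasurable (ae_of_all _ fun G => hzb N G)
  have hfree_low : ∀ N : ℕ, 0 < N → -b ≤ Nested.free τ f γ N := fun N hN => by
    have hi := integral_mono (integrable_const (-((N : ℝ) * b))) (hzi N)
      fun G => (abs_le.1 (hzb N G)).1
    simp at hi
    rw [free_rows τ hf, one_div_mul_eq_div, le_div_iff₀ (Nat.cast_pos.2 hN)]
    linarith
  -- every good value is a lower bound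
  have hlower : ∀ d, GoodCentre γ κ L d → ∀ η > 0, ∀ᶠ N in atTop,
      g d - η ≤ Nested.free τ f γ N ∧ g d - η ≤ b := fun d hd η hη => by
    obtain ⟨lam, hlam, hev⟩ := hlow κ L η hκ hη d hd
    filter_upwards [hev, hcut, eventually_ge_atTop 1] with N hN hc hN1
    refine ⟨hN.trans ?_, hN.trans (freePen_le hf hb γ hlam d hb0 hτ.le hN1 hc.2)⟩
    rw [free_rows τ hf, freePen]
    refine mul_le_mul_of_nonneg_left (integral_mono (dev_log_zpen hf hb γ hlam d hb0 hτ.le hN1 hc.2).1
      (hzi N) fun G => ?_) (by positivity)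
    obtain ⟨C, hC⟩ := zpen_facts hf hb γ hlam d hτ.le hN1 hc.2
    exact Real.log_le_log (hC G).1 (zpen_le_int (measurable_eneG τ hf γ G) (abs_ene_le hb γ G)
      (measurable_ovl τ γ) (mul_nonneg hlam (Nat.cast_nonneg N)) d)
  have hbdd : BddAbove Sset := by
    refine ⟨b + 1, ?_⟩
    rintro _ ⟨d, hd, rfl⟩
    obtain ⟨N, hN⟩ := (hlower d hd 1 one_pos).exists
    linarith [hN.2]
  set M := max (sSup Sset) (-(2 * b + 1))
  have hupper : ∀ η > 0, ∀ᶠ N in atTop, Nested.free τ f γ N
      ≤ (if Sset.Nonempty then M else -(2 * b + 1)) + 4 * η := fun η hη => by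
    obtain ⟨lam0, hlam0⟩ := hup κ L η hκ hη
    set lam := max lam0 lam1 with hlamdef
    have hlam : 0 ≤ lam := hlam1.trans (le_max_right _ _)
    obtain ⟨D, hD, hDb, hDc⟩ := exists_box_net (OIdx K) (τ * B)
      (ε := η / (lam + 1)) (by positivity)
    set D' := D.image (tidy γ)
    have hD' : D'.Nonempty := hD.image _
    have hD'b : ∀ d ∈ D', Clean γ d ∧ ∀ i, |d i| ≤ L := fun d hd => by
      obtain ⟨e, he, rfl⟩ := mem_image.1 hd
      exact ⟨clean_tidy γ e, abs_tidy_le (by positivity) (hDb e he)⟩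
    set T := if Sset.Nonempty then M else -(2 * b + 1)
    have hev : ∀ d ∈ D', ∀ᶠ N : ℕ in atTop,
        0 < (spinLaw K N).real (cutSet B K N) → freePen τ f γ B lam d N ≤ T + η := fun d hd => by
      by_cases hgd : GoodCentre γ κ L d
      · have hne : Sset.Nonempty := ⟨g d, d, hgd, rfl⟩
        filter_upwards [hlam0 lam (le_max_left _ _) d hgd] with N hN _
        simp only [T, hne, if_true]
        linarith [le_max_left (sSup Sset) (-(2 * b + 1)), le_csSup hbdd ⟨d, hgd, rfl⟩]
      · filter_upwards [hsing B L lam (le_max_right _ _) d (hD'b d hd).1 (hD'b d hd).2 hgd]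
          with N hN hS
        refine (hN hS).trans ?_
        simp only [T]
        split_ifs <;> linarith [le_max_right (sSup Sset) (-(2 * b + 1))]
    have hv : Tendsto (fun N : ℕ => (Real.log (2 * D'.card) + D'.card * (√(N : ℝ) * (2 * b))) / N)
        atTop (𝓝 0) := by
      have h1 : Tendsto (fun N : ℕ => Real.log (2 * D'.card) / (N : ℝ)) atTop (𝓝 0) :=
        tendsto_natCast_atTop_atTop.const_div_atTop _
      have h2 : Tendsto (fun N : ℕ => (D'.card : ℝ) * (2 * b) / √(N : ℝ)) atTop (𝓝 0) :=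
        (Real.tendsto_sqrt_atTop.comp tendsto_natCast_atTop_atTop).const_div_atTop _
      have h3 := h1.add h2
      rw [add_zero] at h3
      refine h3.congr' ?_
      filter_upwards [eventually_ge_atTop 1] with N hN
      have hN' : (0 : ℝ) < N := Nat.cast_pos.2 hN
      have := Real.mul_self_sqrt hN'.le
      field_simp
      linear_combination (-(2 * b * (D'.card : ℝ))) * this
    filter_upwards [(eventually_all_finset D').2 hev, hcut, eventually_ge_atTop 1,
      hv.eventually_le_const hη] with N hN hc hN1 hsmall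
    have hN' : (0 : ℝ) < N := Nat.cast_pos.2 hN1
    set X := fun d (G : Fin N → Fin N → ℝ) =>
      Real.log (zpen (spinLaw K N) (ene τ f γ G) (ovl τ γ) (cutSet B K N) (lam * N) d)
    set e := lam * N * (η / (lam + 1)) + Real.log (2 * D'.card)
    have hpt : ∀ G, Real.log (∫ ω, Real.exp (ene τ f γ G ω) ∂spinLaw K N) - e
        ≤ D'.sup' hD' fun d => X d G := fun G => by
      have hG := log_int_le_net (π := spinLaw K N) (R := ovl τ γ) (S := cutSet B K N)
        (measurable_eneG τ hf γ G) (abs_ene_le hb γ G)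
        (measurable_ovl τ γ) (mul_nonneg hlam hN'.le) (measurableSet_cut B K N) hD'
        (ε := η / (lam + 1))
        (fun ω hω => by
          obtain ⟨d, hd, hdist⟩ := hDc _ (abs_ovl_le hτ.le γ hN1 hω)
          exact ⟨tidy γ d, mem_image_of_mem _ hd, (tidy_closer (ovl_clean γ τ ω) d).trans hdist⟩)
        hc.1 (fun d => (zpen_facts hf hb γ hlam d hτ.le hN1 hc.2).choose_spec G |>.1)
      linarith
    have hmean := mean_sup_le (μ := rowsLaw N) hD' (X := X)
      (fun d => (dev_log_zpen hf hb γ hlam d hb0 hτ.le hN1 hc.2).1)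
      (v := √(N : ℝ) * (2 * b)) (fun d => (dev_log_zpen hf hb γ hlam d hb0 hτ.le hN1 hc.2).2)
      ((hzi N).sub (integrable_const e)) hpt
    simp only [Pi.sub_apply] at hmean
    rw [integral_sub (hzi N) (integrable_const e), integral_const, probReal_univ, one_smul] at hmean
    have hsup : D'.sup' hD' (fun d => ∫ G, X d G ∂rowsLaw N) ≤ N * (T + η) :=
      Finset.sup'_le _ _ fun d hd => by
        have := hN d hd hc.2
        rwa [freePen, one_div_mul_eq_div, div_le_iff₀' hN'] at this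
    rw [free_rows τ hf, one_div_mul_eq_div, div_le_iff₀' hN']
    have h1 : lam * N * (η / (lam + 1)) ≤ N * η := by
      have h2 : lam * (η / (lam + 1)) ≤ η := by
        rw [mul_div_assoc', div_le_iff₀ (by positivity)]; nlinarith
      nlinarith
    rw [div_le_iff₀' hN'] at hsmall
    simp only [e] at hmean
    have h4 : 0 ≤ (N : ℝ) * η := by positivity
    simp only [T] at hsup ⊢
    linarith
  have hne : Sset.Nonempty := by
    by_contra hne
    obtain ⟨N, hN, hN1⟩ := ((hupper (1 / 8) (by norm_num)).and (eventually_ge_atTop 1)).exists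
    rw [if_neg hne] at hN
    linarith [hfree_low N hN1]
  have hM : M = sSup Sset := by
    refine max_eq_left (not_lt.1 fun hlt => ?_)
    obtain ⟨N, hN, hN1⟩ := ((hupper (1 / 8) (by norm_num)).and (eventually_ge_atTop 1)).exists
    rw [if_pos hne] at hN
    simp only [M, max_eq_right hlt.le] at hN
    linarith [hfree_low N hN1]
  refine ⟨sSup Sset, Metric.tendsto_nhds.2 fun ε hε => ?_⟩
  obtain ⟨_, ⟨d, hd, rfl⟩, hdε⟩ := exists_lt_of_lt_csSup hne (show sSup Sset - ε / 4 < _ by linarith)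
  filter_upwards [hupper (ε / 8) (by linarith), hlower d hd (ε / 4) (by linarith)] with N h1 h2
  rw [if_pos hne, hM] at h1
  rw [Real.dist_eq, abs_lt]
  constructor <;> linarith [h2.1]

end

end Vale.Agent.P166.Pen
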