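import Vale.Agent.P166.Pen.Trunc

/-!
The two limits needed by the reduction of the pressure follow from weak limits of penalised free
energies of bounded potentials.
-/

open MeasureTheory ProbabilityTheory Filter Topology Finset

namespace Vale.Agent.P166.Pen

open Vale.Agent.P166 Vale.Agent.P166.Nested

variable {K N : ℕ}

section Step

variable {τ C A : ℝ} (hτ : 0 ≤ τ) (hA : 0 ≤ A) (γ : Fin K → ℝ) {f f' : (Fin K → ℝ) → ℝ}
  (hf : Continuous f) (hf' : Continuous f') (hC : 0 ≤ C) (hup : ∀ y, f y ≤ C)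
  (hup' : ∀ y, f' y ≤ C) (hlo : ∀ y, -(A * (1 + ∑ k, y k ^ 2)) ≤ f y)
  (hlo' : ∀ y, -(A * (1 + ∑ k, y k ^ 2)) ≤ f' y)

/-- Potentials `f'` on the sites before `j` and `f` after. -/
noncomputable def hyb (f f' : (Fin K → ℝ) → ℝ) (j : ℕ) (i : Fin N) : (Fin K → ℝ) → ℝ :=
  if i.val < j then f' else f

/-- Logarithm of the partition function with one potential per site. -/
noncomputable def lzV (τ : ℝ) (φ : Fin N → (Fin K → ℝ) → ℝ) (γ : Fin K → ℝ)
    (G : Fin N → Fin N → ℝ) : ℝ :=
  Real.log (∫ ω, Real.exp (eneV τ φ γ G ω) ∂spinLaw K N)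

include hτ hA

theorem integrable_lzV {φ : Fin N → (Fin K → ℝ) → ℝ} (hc : ∀ i, Continuous (φ i))
    (hu : ∀ i y, φ i y ≤ C) (hl : ∀ i y, -(A * (1 + ∑ k, y k ^ 2)) ≤ φ i y) (hN : 0 < N) :
    Integrable (lzV τ φ γ) (rowsLaw N) := by
  obtain ⟨hg, -⟩ := gnorm_sq_moment hN
  have hm : Measurable (lzV τ φ γ) := Measurable.log
    (StronglyMeasurable.integral_prod_right' (ν := spinLaw K N)
      (f := fun q : (Fin N → Fin N → ℝ) × (Fin K → Fin N → ℝ) => Real.exp (eneV τ φ γ q.1 q.2))
      (Real.continuous_exp.comp (continuous_eneV γ hc)).stronglyMeasurable).measurable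
  refine ((integrable_const (|(N : ℝ) * C| + A * N * (1 + τ * K))).fun_add
    (hg.const_mul (A * N * (τ * K)))).mono' hm.aestronglyMeasurable (ae_of_all _ fun G => ?_)
  have h1 := expV_lower hτ hA γ hc hu hl hN G
  have h2 := expV_upper γ hc hu G (τ := τ)
  have hg0 := gnorm_nonneg G
  have h3 := (Real.log_le_iff_le_exp ((Real.exp_pos _).trans_le h1)).2 h2
  have h4 := (Real.le_log_iff_exp_le ((Real.exp_pos _).trans_le h1)).2 h1
  have h5 : A * N * (τ * K) * gnorm G ≤ A * N * (τ * K) * (1 + gnorm G ^ 2) :=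
    mul_le_mul_of_nonneg_left (by nlinarith [sq_nonneg (gnorm G - 1)]) (by positivity)
  have h6 : 0 ≤ A * N := by positivity
  have h7 : 0 ≤ A * N * (τ * K) * gnorm G := by positivity
  rw [Real.norm_eq_abs, abs_le]
  constructor <;> simp only [lzV] <;>
    nlinarith [abs_nonneg ((N : ℝ) * C), le_abs_self ((N : ℝ) * C), mul_nonneg h6 (sq_nonneg (gnorm G))]

include hf hf' hC hup hup' hlo hlo'

/-- Cost of one more site with the new potential. -/
theorem hyb_step (hN : 0 < N) {δ : ℝ} (hδ0 : 0 ≤ δ)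
    (hδ : ∀ y, Real.exp (f' y) - Real.exp (f y) ≤ δ) {L : ℝ} (hL : 0 < L) (a : Fin N) :
    ∫ G, lzV τ (hyb f f' (a.val + 1)) γ G ∂rowsLaw N
      ≤ (∫ G, lzV τ (hyb f f' a.val) γ G ∂rowsLaw N) + δ * Real.exp L
        + (C ^ 2 + 4 * A ^ 2
          + 4 * A ^ 2 * (64 * τ ^ 2 * (K : ℝ) ^ 2
              * (128 * ((|C| + A + K) ^ 2 + (A * τ * K) ^ 2 * 64) + 128))) / L := by
  set ψ : Fin N → (Fin K → ℝ) → ℝ := fun i => if i = a then fun _ => 0 else hyb f f' a.val i
    with hψdef
  have hψc : ∀ i, Continuous (ψ i) := fun i => by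
    simp only [hψdef, hyb]; split_ifs <;> first | exact continuous_const | assumption
  have hψu : ∀ i y, ψ i y ≤ C := fun i y => by
    simp only [hψdef, hyb]; split_ifs
    · exact hC
    · exact hup' y
    · exact hup y
  have hψl : ∀ i y, -(A * (1 + ∑ k, y k ^ 2)) ≤ ψ i y := fun i y => by
    simp only [hψdef, hyb]; split_ifs
    · exact neg_nonpos.2 (by positivity)
    · exact hlo' y
    · exact hlo y
  have hψa : ψ a = fun _ => 0 := by simp [hψdef]
  have hsplit : ∀ (h : (Fin K → ℝ) → ℝ) (j : ℕ),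
      (∀ i, i ≠ a → hyb f f' j i = hyb f f' a.val i) → hyb (N := N) f f' j a = h →
      ∀ G ω, eneV τ (hyb f f' j) γ G ω = eneV τ ψ γ G ω + h (rowField τ γ G ω a) := by
    intro h j hoff ha G ω
    have e : ∀ i, hyb f f' j i (rowField τ γ G ω i)
        = ψ i (rowField τ γ G ω i) + if i = a then h (rowField τ γ G ω a) else 0 := fun i => by
      rcases eq_or_ne i a with rfl | hi
      · simp [hψdef, ha]
      · simp [hψdef, hi, hoff i hi]
    rw [eneV, Finset.sum_congr rfl fun i _ => e i, Finset.sum_add_distrib, Finset.sum_ite_eq',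
      if_pos (mem_univ a)]
    rfl
  have hE0 : ∀ G ω, eneV τ (hyb f f' a.val) γ G ω = eneV τ ψ γ G ω + f (rowField τ γ G ω a) :=
    hsplit f a.val (fun _ _ => rfl) (by simp [hyb])
  have hE1 : ∀ G ω,
      eneV τ (hyb f f' (a.val + 1)) γ G ω = eneV τ ψ γ G ω + f' (rowField τ γ G ω a) :=
    hsplit f' (a.val + 1) (fun i hi => by
      have : i.val ≠ a.val := fun h => hi (Fin.ext h)
      simp only [hyb]
      split_ifs <;> first | rfl | omega) (by simp [hyb])
  have hhc : ∀ j i, Continuous (hyb (N := N) f f' j i) := fun j i => by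
    simp only [hyb]; split_ifs <;> assumption
  have hhu : ∀ j i y, hyb (N := N) f f' j i y ≤ C := fun j i y => by
    simp only [hyb]; split_ifs <;> first | exact hup' y | exact hup y
  have hhl : ∀ j i y, -(A * (1 + ∑ k, y k ^ 2)) ≤ hyb (N := N) f f' j i y := fun j i y => by
    simp only [hyb]; split_ifs <;> first | exact hlo' y | exact hlo y
  have hi0 := integrable_lzV hτ hA γ (hhc a.val) (hhu a.val) (hhl a.val) hN
  have hi1 := integrable_lzV hτ hA γ (hhc (a.val + 1)) (hhu (a.val + 1)) (hhl (a.val + 1)) hN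
  obtain ⟨hqi, hq⟩ := fieldMom_mean hτ hA γ hψc hψu hψl hN hψa
  set B := 64 * τ ^ 2 * (K : ℝ) ^ 2 * (128 * ((|C| + A + K) ^ 2 + (A * τ * K) ^ 2 * 64) + 128)
  have hpt : ∀ G, lzV τ (hyb f f' (a.val + 1)) γ G - lzV τ (hyb f f' a.val) γ G
      ≤ δ * Real.exp L + (C ^ 2 + 4 * A ^ 2 + 4 * A ^ 2 * fieldMom τ ψ γ a 2 G) / L := fun G => by
    set Z := ∫ ω, Real.exp (eneV τ ψ γ G ω) ∂spinLaw K N with hZdef
    have hZ : 0 < Z := (Real.exp_pos _).trans_le (expV_lower hτ hA γ hψc hψu hψl hN G)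
    set m := fieldMom τ ψ γ a 1 G with hmdef
    have hm0 : 0 ≤ m := div_nonneg (integral_nonneg fun ω => mul_nonneg
      (pow_nonneg (Finset.sum_nonneg fun k _ => sq_nonneg _) _) (Real.exp_pos _).le) hZ.le
    set X := A * (1 + m)
    have hX : 0 ≤ X := by positivity
    have hiψ := integrable_expV (τ := τ) γ hψc hψu G
    have hm1 := integrable_field_pow hτ hA γ hψc hψu hψl hN G a (p := 1) (by norm_num)
    have ha0 : Integrable (fun ω => Real.exp (eneV τ ψ γ G ω) * Real.exp (f (rowField τ γ G ω a)))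
        (spinLaw K N) := (integrable_expV (τ := τ) γ (hhc a.val) (hhu a.val) G).congr
      (ae_of_all _ fun ω => by simp only [hE0, Real.exp_add])
    have ha1 : Integrable (fun ω => Real.exp (eneV τ ψ γ G ω) * Real.exp (f' (rowField τ γ G ω a)))
        (spinLaw K N) := (integrable_expV (τ := τ) γ (hhc (a.val + 1)) (hhu (a.val + 1)) G).congr
      (ae_of_all _ fun ω => by simp only [hE1, Real.exp_add])
    set I0 := ∫ ω, Real.exp (eneV τ ψ γ G ω) * Real.exp (f (rowField τ γ G ω a)) ∂spinLaw K N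
      with hI0
    set I1 := ∫ ω, Real.exp (eneV τ ψ γ G ω) * Real.exp (f' (rowField τ γ G ω a)) ∂spinLaw K N
      with hI1
    have hlow : Z * Real.exp (-X) ≤ I0 := by
      refine le_of_eq_of_le ?_ (integral_mono ((hiψ.const_mul (Real.exp (-X) * (1 + A * m))).fun_add
        (hm1.const_mul (-(Real.exp (-X) * A)))) ha0 fun ω => ?_)
      · rw [integral_add (hiψ.const_mul _) (hm1.const_mul _), integral_const_mul, integral_const_mul,
          ← hZdef]
        have e : ∫ ω, (∑ k, rowField τ γ G ω a k ^ 2) ^ 1 * Real.exp (eneV τ ψ γ G ω) ∂spinLaw K N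
            = m * Z := by rw [hmdef, fieldMom, div_mul_cancel₀ _ hZ.ne']
        rw [e]; ring
      · set s := ∑ k, rowField τ γ G ω a k ^ 2
        have h := Real.add_one_le_exp (A * (m - s))
        have h2 : Real.exp (-X) * (1 + A * (m - s)) ≤ Real.exp (f (rowField τ γ G ω a)) := by
          refine le_trans ?_ (Real.exp_le_exp.2 (hlo (rowField τ γ G ω a)))
          calc Real.exp (-X) * (1 + A * (m - s)) ≤ Real.exp (-X) * Real.exp (A * (m - s)) :=
                mul_le_mul_of_nonneg_left (by linarith) (Real.exp_pos _).le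
            _ = _ := by rw [← Real.exp_add]; simp only [X, s]; ring_nf
        show _ ≤ Real.exp (eneV τ ψ γ G ω) * Real.exp (f (rowField τ γ G ω a))
        refine le_trans (le_of_eq ?_) (mul_le_mul_of_nonneg_left h2 (Real.exp_pos _).le)
        ring
    have hgap : I1 - I0 ≤ δ * Z := by
      rw [hI1, hI0, ← integral_sub ha1 ha0, hZdef, ← integral_const_mul]
      refine integral_mono (ha1.sub ha0) (hiψ.const_mul _) fun ω => ?_
      show Real.exp _ * _ - Real.exp _ * _ ≤ _
      rw [← mul_sub, mul_comm δ]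
      exact mul_le_mul_of_nonneg_left (hδ _) (Real.exp_pos _).le
    have hupI : I1 ≤ Real.exp C * Z := by
      rw [hI1, hZdef, ← integral_const_mul]
      refine integral_mono ha1 (hiψ.const_mul _) fun ω => ?_
      show Real.exp _ * _ ≤ _
      rw [mul_comm (Real.exp C)]
      exact mul_le_mul_of_nonneg_left (Real.exp_le_exp.2 (hup' _)) (Real.exp_pos _).le
    have hI1pos : 0 < I1 := by
      have : lzV τ (hyb f f' (a.val + 1)) γ G = Real.log I1 := by
        simp only [lzV, hE1, Real.exp_add, hI1]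
      rw [hI1]
      refine lt_of_lt_of_le (Real.exp_pos _) (le_of_le_of_eq
        (expV_lower hτ hA γ (hhc (a.val + 1)) (hhu (a.val + 1)) (hhl (a.val + 1)) hN G) ?_)
      simp only [hE1, Real.exp_add]
    have hI0pos : 0 < I0 := lt_of_lt_of_le (by positivity) hlow
    have e0 : lzV τ (hyb f f' a.val) γ G = Real.log I0 := by
      simp only [lzV, hE0, Real.exp_add, hI0]
    have e1 : lzV τ (hyb f f' (a.val + 1)) γ G = Real.log I1 := by
      simp only [lzV, hE1, Real.exp_add, hI1]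
    rw [e0, e1]
    have hm2 := fieldMom_sq_le hτ hA γ hψc hψu hψl hN G a
    have hq0 : 0 ≤ fieldMom τ ψ γ a 2 G := (sq_nonneg _).trans hm2
    rcases le_or_gt X L with hXL | hXL
    · have h1 : Real.log I1 - Real.log I0 ≤ (I1 - I0) / I0 := by
        rw [← Real.log_div hI1pos.ne' hI0pos.ne']
        refine (Real.log_le_sub_one_of_pos (by positivity)).trans_eq ?_
        field_simp
      have h2 : (I1 - I0) / I0 ≤ δ * Real.exp L := by
        rw [div_le_iff₀ hI0pos]
        refine hgap.trans ?_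
        have h3 : Real.exp L * Real.exp (-X) ≥ 1 := by
          rw [← Real.exp_add]; exact Real.one_le_exp (by linarith)
        have h4 := mul_le_mul_of_nonneg_left hlow (mul_nonneg hδ0 (Real.exp_pos L).le)
        nlinarith [mul_le_mul_of_nonneg_left h3 (mul_nonneg hδ0 hZ.le)]
      have h5 : 0 ≤ (C ^ 2 + 4 * A ^ 2 + 4 * A ^ 2 * fieldMom τ ψ γ a 2 G) / L := by positivity
      linarith
    · have h1 : Real.log I1 ≤ C + Real.log Z :=
        (Real.log_le_log hI1pos hupI).trans_eq (by rw [Real.log_mul (by positivity) hZ.ne', Real.log_exp])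
      have h2 : Real.log Z - X ≤ Real.log I0 :=
        le_of_eq_of_le (by rw [Real.log_mul hZ.ne' (by positivity), Real.log_exp]; ring)
          (Real.log_le_log (by positivity) hlow)
      have h3 : C + X ≤ (C ^ 2 + 4 * A ^ 2 + 4 * A ^ 2 * fieldMom τ ψ γ a 2 G) / L := by
        rw [le_div_iff₀ hL]
        refine (mul_le_mul_of_nonneg_left hXL.le (by linarith)).trans ?_
        simp only [X]
        nlinarith [mul_le_mul_of_nonneg_left hm2 (sq_nonneg A), sq_nonneg (C - A * (1 + m)),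
          sq_nonneg (A * (1 - m))]
      have : 0 ≤ δ * Real.exp L := by positivity
      linarith
  have hrhs : Integrable (fun G => δ * Real.exp L
      + (C ^ 2 + 4 * A ^ 2 + 4 * A ^ 2 * fieldMom τ ψ γ a 2 G) / L) (rowsLaw N) :=
    (integrable_const _).fun_add (((integrable_const _).fun_add (hqi.const_mul _)).div_const L)
  have h := integral_mono (hi1.sub hi0) hrhs hpt
  rw [integral_add (integrable_const _) (((integrable_const _).fun_add (hqi.const_mul _)).div_const L),
    integral_div, integral_add (integrable_const _) (hqi.const_mul _), integral_const_mul] at h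
  simp only [integral_const, probReal_univ, one_smul, integral_const_mul] at h
  have h' : (C ^ 2 + 4 * A ^ 2 + 4 * A ^ 2 * ∫ G, fieldMom τ ψ γ a 2 G ∂rowsLaw N) / L
      ≤ (C ^ 2 + 4 * A ^ 2 + 4 * A ^ 2 * B) / L := by gcongr
  simp only [Pi.sub_apply] at h
  rw [integral_sub hi1 hi0] at h
  linarith

end Step

theorem free_lzV (τ : ℝ) {f : (Fin K → ℝ) → ℝ} (hf : Continuous f) (γ : Fin K → ℝ) (N : ℕ) :
    Nested.free τ f γ N = 1 / (N : ℝ) * ∫ G, lzV τ (fun _ => f) γ G ∂rowsLaw N :=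
  free_rows τ hf γ N

/-- Cutting moves the free energy per site little, uniformly in the size. -/
theorem trunc_close {τ C A : ℝ} (hτ : 0 ≤ τ) (hA : 0 ≤ A) (hC : 0 ≤ C) (γ : Fin K → ℝ)
    {f : (Fin K → ℝ) → ℝ} (hf : Continuous f) (hup : ∀ y, f y ≤ C)
    (hlo : ∀ y, -(A * (1 + ∑ k, y k ^ 2)) ≤ f y) :
    ∃ D : ℝ, 0 ≤ D ∧ ∀ R > (0 : ℝ), ∀ L > (0 : ℝ), ∀ N : ℕ, 0 < N →
      |Nested.free τ (trunc C R f) γ N - Nested.free τ f γ N|
        ≤ 4 * Real.exp C / R * Real.exp L + D / L := by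
  set D := C ^ 2 + 4 * A ^ 2 + 4 * A ^ 2 * (64 * τ ^ 2 * (K : ℝ) ^ 2
    * (128 * ((|C| + A + K) ^ 2 + (A * τ * K) ^ 2 * 64) + 128))
  refine ⟨D, by positivity, ?_⟩
  intro R hR L hL N hN
  set f' := trunc C R f
  have hf' : Continuous f' := continuous_trunc hf
  have hlo' : ∀ y, -(A * (1 + ∑ k, y k ^ 2)) ≤ f' y := fun y => (hlo y).trans (le_trunc hR y)
  set J := fun j : ℕ => ∫ G, lzV τ (hyb (N := N) f f' j) γ G ∂rowsLaw N with hJdef
  have hstep : ∀ j ≤ N, J j ≤ J 0 + j * (4 * Real.exp C / R * Real.exp L + D / L) := by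
    intro j
    induction j with
    | zero => intro _; simp
    | succ j ih =>
      intro hj
      have h1 := hyb_step hτ hA γ hf hf' hC hup (trunc_le hR hup) hlo hlo' hN (by positivity)
        (exp_trunc_sub_le hR hup) hL ⟨j, hj⟩
      have h2 := ih (Nat.le_of_succ_le hj)
      simp only [hJdef] at h2 ⊢
      push_cast
      linarith
  have hN' : (0 : ℝ) < N := Nat.cast_pos.2 hN
  have hy0 : hyb (N := N) f f' 0 = fun _ => f := funext fun i => if_neg (Nat.not_lt_zero _)
  have hy1 : hyb (N := N) f f' N = fun _ => f' := funext fun i => if_pos i.isLt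
  have e0 : J 0 = ∫ G, lzV τ (fun _ => f) γ G ∂rowsLaw N := by simp only [hJdef, hy0]
  have e1 : J N = ∫ G, lzV τ (fun _ => f') γ G ∂rowsLaw N := by simp only [hJdef, hy1]
  have hmono : J 0 ≤ J N := by
    rw [e0, e1]
    refine integral_mono (integrable_lzV hτ hA γ (fun _ => hf) (fun _ => hup) (fun _ => hlo) hN)
      (integrable_lzV hτ hA γ (fun _ => hf') (fun _ => trunc_le hR hup) (fun _ => hlo') hN)
      fun G => Real.log_le_log ((Real.exp_pos _).trans_le (expV_lower hτ hA γ (fun _ => hf)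
        (fun _ => hup) (fun _ => hlo) hN G)) (integral_mono
          (integrable_expV γ (fun _ => hf) (fun _ => hup) G)
          (integrable_expV γ (fun _ => hf') (fun _ => trunc_le hR hup) G)
          fun ω => Real.exp_le_exp.2 (Finset.sum_le_sum fun i _ => le_trunc hR _))
  rw [free_lzV τ hf', free_lzV τ hf, ← e0, ← e1, ← mul_sub, one_div_mul_eq_div, abs_div,
    abs_of_nonneg (sub_nonneg.2 hmono), abs_of_pos hN', div_le_iff₀ hN']
  linarith [hstep N le_rfl]

/-- Free energies of cut potentials with limits give a limit. -/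
theorem free_limit_of_trunc {τ C A : ℝ} (hτ : 0 ≤ τ) (hA : 0 ≤ A) (hC : 0 ≤ C) (γ : Fin K → ℝ)
    {f : (Fin K → ℝ) → ℝ} (hf : Continuous f) (hup : ∀ y, f y ≤ C)
    (hlo : ∀ y, -(A * (1 + ∑ k, y k ^ 2)) ≤ f y)
    (h : ∀ R > (0 : ℝ), ∃ L, Tendsto (Nested.free τ (trunc C R f) γ) atTop (𝓝 L)) :
    ∃ L, Tendsto (Nested.free τ f γ) atTop (𝓝 L) := by
  obtain ⟨D, hD, hbound⟩ := trunc_close hτ hA hC γ hf hup hlo
  refine ⟨_, CauchySeq.tendsto_limUnder (Metric.cauchySeq_iff.2 fun ε hε => ?_)⟩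
  set L := (8 * D + 1) / ε with hLdef
  have hL : 0 < L := by positivity
  set R := 32 * Real.exp C * Real.exp L / ε with hRdef
  have hR : 0 < R := by positivity
  obtain ⟨l, hl⟩ := h R hR
  obtain ⟨N0, hN0⟩ := Metric.cauchySeq_iff.1 hl.cauchySeq (ε / 4) (by linarith)
  refine ⟨max N0 1, fun m hm k hk => ?_⟩
  have hb : 4 * Real.exp C / R * Real.exp L + D / L ≤ ε / 4 := by
    have e1 : 4 * Real.exp C / R * Real.exp L = ε / 8 := by rw [hRdef]; field_simp; ring
    have e2 : D / L ≤ ε / 8 := by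
      rw [hLdef, div_div_eq_mul_div, div_le_iff₀ (by positivity)]; nlinarith
    linarith
  have h1 := (hbound R hR L hL m (lt_of_lt_of_le one_pos ((le_max_right _ _).trans hm))).trans hb
  have h2 := (hbound R hR L hL k (lt_of_lt_of_le one_pos ((le_max_right _ _).trans hk))).trans hb
  have h3 := hN0 m ((le_max_left _ _).trans hm) k ((le_max_left _ _).trans hk)
  rw [Real.dist_eq] at h3 ⊢
  obtain ⟨a1, a2⟩ := abs_le.1 h1
  obtain ⟨b1, b2⟩ := abs_le.1 h2
  obtain ⟨c1, c2⟩ := abs_lt.1 h3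
  exact abs_lt.2 ⟨by linarith, by linarith⟩

/-- Weak limits of the penalised free energies of the cut potentials of the two models. -/
def PenEngine : Prop :=
  (∀ (K : ℕ) (c γ : Fin K → ℝ) (τ R : ℝ), 0 < K → 0 < τ → 0 < R → (∀ k, 0 < c k) →
      (∀ k, γ k ∈ Set.Ioo (0 : ℝ) 1) →
      PenLimits τ (trunc ((∑ k, c k) / 2 + ∑ k, c k ^ 2) R (pot c)) γ) ∧
    ∀ c γ τ R : ℝ, 0 < c → 0 < τ → 0 < R → γ ∈ Set.Ioo (0 : ℝ) 1 →
      PenLimits τ (trunc 0 R (quad c)) fun _ => γ

theorem pot_bounds {c : Fin K → ℝ} (hc : ∀ k, 0 < c k) (y : Fin K → ℝ) :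
    pot c y ≤ (∑ k, c k) / 2 + ∑ k, c k ^ 2 ∧
      -((∑ k, c k) * (1 + ∑ k, y k ^ 2)) ≤ pot c y := by
  constructor
  · have h1 : Real.log (Real.cosh (∑ k, c k * y k)) ≤ |∑ k, c k * y k| := by
      rw [Real.log_le_iff_le_exp (Real.cosh_pos _), Real.cosh_eq]
      linarith [Real.exp_le_exp.2 (le_abs_self (∑ k, c k * y k)),
        Real.exp_le_exp.2 (neg_le_abs (∑ k, c k * y k))]
    have h2 : ∀ k, |c k * y k| ≤ c k / 2 + c k * y k ^ 2 / 2 := fun k => by
      rw [abs_mul, abs_of_pos (hc k)]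
      have h := mul_nonneg (hc k).le (sq_nonneg (|y k| - 1))
      rw [sub_sq, sq_abs] at h
      linarith
    have h3 := (Finset.abs_sum_le_sum_abs _ _).trans (Finset.sum_le_sum fun k (_ : k ∈ univ) => h2 k)
    rw [Finset.sum_add_distrib, ← Finset.sum_div, ← Finset.sum_div] at h3
    have h4 : 0 ≤ ∑ k, c k ^ 2 := Finset.sum_nonneg fun k _ => sq_nonneg _
    simp only [pot, ← Finset.sum_div]
    linarith
  · have h1 : 0 ≤ Real.log (Real.cosh (∑ k, c k * y k)) := Real.log_nonneg (Real.one_le_cosh _)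
    have hs : 0 ≤ ∑ k, y k ^ 2 := Finset.sum_nonneg fun k _ => sq_nonneg _
    have h2 : ∑ k, c k * y k ^ 2 ≤ (∑ k, c k) * ∑ k, y k ^ 2 := by
      rw [Finset.sum_mul]
      exact Finset.sum_le_sum fun k _ => mul_le_mul_of_nonneg_left
        (Finset.single_le_sum (f := fun k => y k ^ 2) (fun j _ => sq_nonneg _) (mem_univ k)) (hc k).le
    have h3 : 0 ≤ ∑ k, c k := Finset.sum_nonneg fun k _ => (hc k).le
    have h4 : 0 ≤ ∑ k, c k * y k ^ 2 := Finset.sum_nonneg fun k _ => mul_nonneg (hc k).le (sq_nonneg _)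
    simp only [pot, ← Finset.sum_div]
    nlinarith

/-- Weak limits of the penalised free energies give both limits of the engine. -/
theorem engineLimit_of_pen (h : PenEngine) : EngineLimit := by
  constructor
  · intro K c γ τ hK hτ hc hγ
    set C := (∑ k, c k) / 2 + ∑ k, c k ^ 2
    have hsum : 0 ≤ ∑ k, c k := Finset.sum_nonneg fun k _ => (hc k).le
    have hcont : Continuous (pot c) := by
      have hcosh : Continuous fun y : Fin K → ℝ => Real.log (Real.cosh (∑ k, c k * y k)) :=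
        (by fun_prop : Continuous fun y : Fin K → ℝ => Real.cosh (∑ k, c k * y k)).log
          fun y => (Real.cosh_pos _).ne'
      exact hcosh.sub (by fun_prop)
    exact free_limit_of_trunc hτ.le hsum (by positivity) γ hcont (fun y => (pot_bounds hc y).1)
      (fun y => (pot_bounds hc y).2) fun R hR => free_limit_of_pen hτ hγ (continuous_trunc hcont)
        (abs_trunc_le hR fun y => (pot_bounds hc y).1) (h.1 K c γ τ R hK hτ hR hc hγ)
  · intro c γ τ hc hτ hγ
    have hup : ∀ y, quad c y ≤ 0 := fun y => neg_nonpos.2 (by positivity)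
    have hlo : ∀ y : Fin 1 → ℝ, -(c * (1 + ∑ k, y k ^ 2)) ≤ quad c y := fun y => by
      simp only [quad, Fin.sum_univ_one]; nlinarith [sq_nonneg (y 0)]
    have hcont : Continuous (quad c) := by unfold quad; fun_prop
    exact free_limit_of_trunc hτ.le hc.le le_rfl _ hcont hup hlo fun R hR =>
      free_limit_of_pen hτ (fun _ => hγ) (continuous_trunc hcont)
        (abs_trunc_le hR hup) (h.2 c γ τ R hc hτ hR hγ)

end Vale.Agent.P166.Pen
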