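import Vale.Agent.P166.Pen.PenLimit

/-!
The free energy converges to the supremum of the weak limits of the penalised free energies when
the upper bound holds centre by centre.
-/

open MeasureTheory ProbabilityTheory Filter Topology Finset

namespace Vale.Agent.P166.Pen

open Vale.Agent.P166 Vale.Agent.P166.Nested

section

variable {E ι α : Type*} [MeasurableSpace E] [Fintype ι] {π : Measure E} [IsProbabilityMeasure π]
  {H : E → ℝ} {R : E → ι → ℝ} {S : Set E} {b : ℝ}

/-- The free partition function through centres with penalties of their own. -/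
theorem int_le_cover (hH : Measurable H) (hb : ∀ x, |H x| ≤ b)
    (hR : ∀ i, Measurable fun x => R x i) (hS : MeasurableSet S) (D : Finset α) (c : α → ι → ℝ)
    (κ : α → ℝ) (hκ : ∀ a, 0 ≤ κ a) {e : ℝ}
    (hcov : ∀ x ∈ S, ∃ a ∈ D, κ a * ∑ i, (R x i - c a i) ^ 2 ≤ e) :
    ∫ x, Real.exp (H x) ∂π
      ≤ Real.exp e * (∑ a ∈ D, zpen π H R S (κ a) (c a)) + Real.exp b * π.real Sᶜ := by
  have hi := integrable_exp_energy (π := π) hH hb
  rw [← integral_add_compl hS hi]
  refine add_le_add ?_ ?_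
  · rw [Finset.mul_sum]
    simp only [zpen, ← integral_const_mul]
    rw [← integral_finsetSum _ fun a _ =>
      ((integrable_zpen hH hb hR (hκ a) (c a)).const_mul _).integrableOn]
    refine setIntegral_mono_on hi.integrableOn (integrable_finsetSum _ fun a _ =>
      ((integrable_zpen hH hb hR (hκ a) (c a)).const_mul _).integrableOn) hS fun x hx => ?_
    obtain ⟨a, ha, hdist⟩ := hcov x hx
    refine le_trans ?_ (Finset.single_le_sum (fun e _ => by positivity) ha)
    rw [← Real.exp_add, Real.exp_le_exp]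
    linarith
  · refine (setIntegral_mono_on hi.integrableOn (integrableOn_const (measure_ne_top _ _)) hS.compl
      fun x _ => Real.exp_le_exp.2 (le_of_abs_le (hb x))).trans_eq ?_
    rw [setIntegral_const, smul_eq_mul, mul_comm]

/-- The free energy is at most the largest penalised one, each with a penalty of its own. -/
theorem log_int_le_cover (hH : Measurable H) (hb : ∀ x, |H x| ≤ b)
    (hR : ∀ i, Measurable fun x => R x i) (hS : MeasurableSet S) {D : Finset α} (hD : D.Nonempty)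
    (c : α → ι → ℝ) (κ : α → ℝ) (hκ : ∀ a, 0 ≤ κ a) {e : ℝ}
    (hcov : ∀ x ∈ S, ∃ a ∈ D, κ a * ∑ i, (R x i - c a i) ^ 2 ≤ e)
    (hcut : 2 * (π.real Sᶜ * Real.exp (2 * b)) ≤ 1) (hz : ∀ a, 0 < zpen π H R S (κ a) (c a)) :
    Real.log (∫ x, Real.exp (H x) ∂π)
      ≤ D.sup' hD (fun a => Real.log (zpen π H R S (κ a) (c a))) + e + Real.log (2 * D.card) := by
  set M := D.sup' hD fun a => Real.log (zpen π H R S (κ a) (c a))
  set Z := ∫ x, Real.exp (H x) ∂π
  have hcard : (0 : ℝ) < D.card := Nat.cast_pos.2 hD.card_pos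
  have hlow : Real.exp (-b) ≤ Z := le_of_eq_of_le (by simp) (integral_mono (integrable_const _)
    (integrable_exp_energy hH hb) fun x => Real.exp_le_exp.2 (neg_le_of_abs_le (hb x)))
  have hsum : ∑ a ∈ D, zpen π H R S (κ a) (c a) ≤ D.card * Real.exp M := by
    rw [← nsmul_eq_mul]
    refine Finset.sum_le_card_nsmul _ _ _ fun a ha => ?_
    rw [← Real.exp_log (hz a)]
    exact Real.exp_le_exp.2
      (Finset.le_sup' (fun a => Real.log (zpen π H R S (κ a) (c a))) ha)
  have hout : Real.exp b * π.real Sᶜ ≤ Z / 2 := by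
    have e : Real.exp (2 * b) * Real.exp (-b) = Real.exp b := by rw [← Real.exp_add]; ring_nf
    nlinarith [mul_le_mul_of_nonneg_right hcut (Real.exp_pos (-b)).le,
      (measureReal_nonneg : 0 ≤ π.real Sᶜ)]
  have h := int_le_cover (π := π) hH hb hR hS D c κ hκ hcov
  have h2 : Z / 2 ≤ Real.exp e * (D.card * Real.exp M) := by
    linarith [mul_le_mul_of_nonneg_left hsum (Real.exp_pos e).le]
  have hZ : 0 < Z := lt_of_lt_of_le (Real.exp_pos _) hlow
  calc Real.log Z ≤ Real.log (Real.exp e * (2 * D.card) * Real.exp M) :=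
        Real.log_le_log hZ (by linarith)
    _ = _ := by
        rw [Real.log_mul (by positivity) (by positivity), Real.log_mul (by positivity) (by positivity),
          Real.log_exp, Real.log_exp]
        ring

end

variable {K : ℕ}

/-- The clean tables bounded by `L` form a compact set. -/
theorem isCompact_clean (γ : Fin K → ℝ) (L : ℝ) :
    IsCompact {d : OIdx K → ℝ | Clean γ d ∧ ∀ i, |d i| ≤ L} := by
  have h1 : IsClosed (⋂ i : OIdx K, {d : OIdx K → ℝ | d i = d (i.1, i.2.2, i.2.1)}) :=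
    isClosed_iInter fun i => isClosed_eq (continuous_apply i) (continuous_apply _)
  have h2 : IsClosed (⋂ i : OIdx K, ⋂ (_ : ¬(Occupied γ i.1 ∧ i.2.1 ∈ i.1 ∧ i.2.2 ∈ i.1)),
      {d : OIdx K → ℝ | d i = 0}) :=
    isClosed_iInter fun i => isClosed_iInter fun _ =>
      isClosed_eq (continuous_apply i) continuous_const
  have e : {d : OIdx K → ℝ | Clean γ d ∧ ∀ i, |d i| ≤ L} =
      (Set.univ.pi fun _ => Set.Icc (-L) L) ∩
        ((⋂ i : OIdx K, {d : OIdx K → ℝ | d i = d (i.1, i.2.2, i.2.1)}) ∩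
          ⋂ i : OIdx K, ⋂ (_ : ¬(Occupied γ i.1 ∧ i.2.1 ∈ i.1 ∧ i.2.2 ∈ i.1)),
            {d : OIdx K → ℝ | d i = 0}) := by
    refine Set.ext fun d => ⟨fun h => ⟨fun i _ => abs_le.1 (h.2 i), ?_, ?_⟩, fun h => ?_⟩
    · exact Set.mem_iInter.2 fun i => h.1.1 i.1 i.2.1 i.2.2
    · exact Set.mem_iInter₂.2 fun i hi => h.1.2 i.1 i.2.1 i.2.2 hi
    · exact ⟨⟨fun t k l => (Set.mem_iInter.1 h.2.1 (t, k, l) :),
        fun t k l hn => (Set.mem_iInter₂.1 h.2.2 (t, k, l) hn :)⟩,
        fun i => abs_le.2 (h.1 i (Set.mem_univ i))⟩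
  rw [e]
  exact (isCompact_univ_pi fun _ => isCompact_Icc).inter_right (h1.inter h2)

/-- The free energy converges to the supremum of the weak limits over all definite centres. -/
theorem free_limit_of_point {τ : ℝ} (hτ : 0 < τ) {γ : Fin K → ℝ}
    (hγ : ∀ k, γ k ∈ Set.Ioo (0 : ℝ) 1) {f : (Fin K → ℝ) → ℝ} {b : ℝ} (hf : Continuous f)
    (hb : ∀ y, |f y| ≤ b) (g : (OIdx K → ℝ) → ℝ) {B0 : ℝ} (gB : ℝ → (OIdx K → ℝ) → ℝ)
    (up : ∀ B ≥ B0, ∀ κ L η : ℝ, 0 < κ → 0 < η → ∀ d, GoodCentre γ κ L d →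
      ∃ lam0 : ℝ, ∀ lam ≥ lam0, ∀ᶠ N in atTop, freePen τ f γ B lam d N ≤ gB B d + η)
    (low : ∀ B ≥ B0, ∀ κ L η : ℝ, 0 < κ → 0 < η → ∀ d, GoodCentre γ κ L d →
      ∃ lam : ℝ, 0 ≤ lam ∧ ∀ᶠ N in atTop, gB B d - η ≤ freePen τ f γ B lam d N)
    (hg : ∀ κ L d, 0 < κ → GoodCentre γ κ L d → ∀ᶠ B in atTop, gB B d = g d)
    (hgB : ∀ B κ L d, 0 < κ → GoodCentre γ κ L d → gB B d = g d ∨ gB B d = -(2 * b + 1)) :
    ∃ lim, Tendsto (Nested.free τ f γ) atTop (𝓝 lim) ∧
      IsLUB (g '' {d | ∃ κ L, 0 < κ ∧ GoodCentre γ κ L d}) lim := by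
  classical
  have hb0 : 0 ≤ b := (abs_nonneg _).trans (hb 0)
  obtain ⟨B1, hB1⟩ := cut_eventually (K := K) b
  obtain ⟨κ, lam1, hκ, hlam1, hsing⟩ := singular_cost hτ hf hb hb0 hγ
  set Sset := g '' {d | ∃ κ L, 0 < κ ∧ GoodCentre γ κ L d}
  have hint : ∀ N, ∀ G : Fin N → Fin N → ℝ, Integrable (fun ω => Real.exp (ene τ f γ G ω))
      (spinLaw K N) := fun N G =>
    integrable_exp_energy (measurable_eneG τ hf γ G) (abs_ene_le hb γ G)
  have hzb : ∀ N, ∀ G : Fin N → Fin N → ℝ,
      |Real.log (∫ ω, Real.exp (ene τ f γ G ω) ∂spinLaw K N)| ≤ N * b := fun N G => by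
    have h1 : Real.exp (-(N * b)) ≤ ∫ ω, Real.exp (ene τ f γ G ω) ∂spinLaw K N :=
      le_of_eq_of_le (by simp) (integral_mono (integrable_const _) (hint N G)
        fun x => Real.exp_le_exp.2 (neg_le_of_abs_le (abs_ene_le hb γ G x)))
    have h2 : ∫ ω, Real.exp (ene τ f γ G ω) ∂spinLaw K N ≤ Real.exp (N * b) :=
      (integral_mono (hint N G) (integrable_const _)
        fun x => Real.exp_le_exp.2 (le_of_abs_le (abs_ene_le hb γ G x))).trans_eq (by simp)
    have hpos := (Real.exp_pos _).trans_le h1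
    refine abs_le.2 ⟨?_, (Real.log_le_iff_le_exp hpos).2 h2⟩
    exact (Real.le_log_iff_exp_le hpos).2 h1
  have hzi : ∀ N, Integrable (fun G => Real.log (∫ ω, Real.exp (ene τ f γ G ω) ∂spinLaw K N))
      (rowsLaw N) := fun N => (integrable_const ((N : ℝ) * b)).mono'
    (Measurable.log ((Real.continuous_exp.comp (measurable_ene (N := N) τ hf γ)).stronglyMeasurable
      |>.integral_prod_right'.measurable)).aestronglyMeasurable (ae_of_all _ fun G => hzb N G)
  have hfree_low : ∀ N : ℕ, 0 < N → -b ≤ Nested.free τ f γ N := fun N hN => by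
    have hi := integral_mono (integrable_const (-((N : ℝ) * b))) (hzi N)
      fun G => (abs_le.1 (hzb N G)).1
    simp at hi
    rw [free_rows τ hf, one_div_mul_eq_div, le_div_iff₀ (Nat.cast_pos.2 hN)]
    linarith
  -- every value is a lower bound
  have hlower : ∀ d, (∃ κ L, 0 < κ ∧ GoodCentre γ κ L d) → ∀ η > 0, ∀ᶠ N in atTop,
      g d - η ≤ Nested.free τ f γ N ∧ g d - η ≤ b := by
    rintro d ⟨κ', L', hκ', hd⟩ η hη
    obtain ⟨B, hBg, hBB⟩ :=
      ((hg κ' L' d hκ' hd).and (eventually_ge_atTop (max B0 B1))).exists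
    obtain ⟨lam, hlam, hev⟩ := low B (le_of_max_le_left hBB) κ' L' η hκ' hη d hd
    filter_upwards [hev, hB1 B (le_of_max_le_right hBB), eventually_ge_atTop 1] with N hN hc hN1
    rw [hBg] at hN
    refine ⟨hN.trans ?_, hN.trans (freePen_le hf hb γ hlam d hb0 hτ.le hN1 hc.2)⟩
    rw [free_rows τ hf, freePen]
    refine mul_le_mul_of_nonneg_left
      (integral_mono (dev_log_zpen hf hb γ hlam d hb0 hτ.le hN1 hc.2).1 (hzi N) fun G => ?_)
      (by positivity)
    obtain ⟨C, hC⟩ := zpen_facts hf hb γ hlam d hτ.le hN1 hc.2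
    exact Real.log_le_log (hC G).1 (zpen_le_int (measurable_eneG τ hf γ G) (abs_ene_le hb γ G)
      (measurable_ovl τ γ) (mul_nonneg hlam (Nat.cast_nonneg N)) d)
  have hbdd : BddAbove Sset := by
    refine ⟨b + 1, ?_⟩
    rintro _ ⟨d, hd, rfl⟩
    obtain ⟨N, hN⟩ := (hlower d hd 1 one_pos).exists
    linarith [hN.2]
  set B := max B0 B1
  have hcut := hB1 B (le_max_right _ _)
  set L := max (τ * B) 0 + 1
  set T := if Sset.Nonempty then max (sSup Sset) (-(2 * b + 1)) else -(2 * b + 1)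
  have hT : -(2 * b + 1) ≤ T := by
    simp only [T]
    split_ifs
    · exact le_max_right _ _
    · exact le_rfl
  have hupper : ∀ η > 0, ∀ᶠ N in atTop, Nested.free τ f γ N ≤ T + 4 * η := fun η hη => by
    set C := {d : OIdx K → ℝ | Clean γ d ∧ ∀ i, |d i| ≤ L}
    have hex : ∀ d, ∃ lam : ℝ, 0 ≤ lam ∧ (d ∈ C → ∀ᶠ N : ℕ in atTop,
        0 < (spinLaw K N).real (cutSet B K N) → freePen τ f γ B lam d N ≤ T + η) := fun d => by
      by_cases hgd : GoodCentre γ κ L d
      · obtain ⟨lam0, hlam0⟩ := up B (le_max_left _ _) κ L η hκ hη d hgd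
        refine ⟨max lam0 lam1, hlam1.trans (le_max_right _ _), fun _ => ?_⟩
        filter_upwards [hlam0 _ (le_max_left _ _)] with N hN _
        refine hN.trans (add_le_add ?_ le_rfl)
        rcases hgB B κ L d hκ hgd with h | h <;> rw [h]
        · have hne : Sset.Nonempty := ⟨g d, d, ⟨κ, L, hκ, hgd⟩, rfl⟩
          simp only [T, if_pos hne]
          exact (le_csSup hbdd ⟨d, ⟨κ, L, hκ, hgd⟩, rfl⟩).trans (le_max_left _ _)
        · exact hT
      · refine ⟨lam1, hlam1, fun hd => ?_⟩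
        filter_upwards [hsing B L lam1 le_rfl d hd.1 hd.2 hgd] with N hN hS
        linarith [hN hS]
    choose lamF hlamF hbound using hex
    obtain ⟨D, hDC, hDcov⟩ := (isCompact_clean γ L).elim_nhds_subcover
      (fun d => {r : OIdx K → ℝ | lamF d * ∑ i, (r i - d i) ^ 2 < η}) fun d _ =>
        (isOpen_lt (by fun_prop) continuous_const).mem_nhds (by simpa using hη)
    have hzero : (fun _ => 0 : OIdx K → ℝ) ∈ C :=
      ⟨⟨fun _ _ _ => rfl, fun _ _ _ _ => rfl⟩, fun i => by simp [L]; positivity⟩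
    have hD : D.Nonempty := by
      obtain ⟨d, hd, -⟩ := Set.mem_iUnion₂.1 (hDcov hzero)
      exact ⟨d, hd⟩
    have hv : Tendsto (fun N : ℕ => (Real.log (2 * D.card) + D.card * (√(N : ℝ) * (2 * b))) / N)
        atTop (𝓝 0) := by
      have h1 : Tendsto (fun N : ℕ => Real.log (2 * D.card) / (N : ℝ)) atTop (𝓝 0) :=
        tendsto_natCast_atTop_atTop.const_div_atTop _
      have h2 : Tendsto (fun N : ℕ => (D.card : ℝ) * (2 * b) / √(N : ℝ)) atTop (𝓝 0) :=
        (Real.tendsto_sqrt_atTop.comp tendsto_natCast_atTop_atTop).const_div_atTop _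
      have h3 := h1.add h2
      rw [add_zero] at h3
      refine h3.congr' ?_
      filter_upwards [eventually_ge_atTop 1] with N hN
      have hN' : (0 : ℝ) < N := Nat.cast_pos.2 hN
      have := Real.mul_self_sqrt hN'.le
      field_simp
      linear_combination (-(2 * b * (D.card : ℝ))) * this
    filter_upwards [(eventually_all_finset D).2 fun d hd => hbound d (hDC d hd), hcut,
      eventually_ge_atTop 1, hv.eventually_le_const hη] with N hN hc hN1 hsmall
    have hN' : (0 : ℝ) < N := Nat.cast_pos.2 hN1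
    set X := fun d (G : Fin N → Fin N → ℝ) =>
      Real.log (zpen (spinLaw K N) (ene τ f γ G) (ovl τ γ) (cutSet B K N) (lamF d * N) d)
    set e := (N : ℝ) * η + Real.log (2 * D.card)
    have hpt : ∀ G, Real.log (∫ ω, Real.exp (ene τ f γ G ω) ∂spinLaw K N) - e
        ≤ D.sup' hD fun d => X d G := fun G => by
      have hG := log_int_le_cover (π := spinLaw K N) (R := ovl τ γ) (S := cutSet B K N)
        (measurable_eneG τ hf γ G) (abs_ene_le hb γ G) (measurable_ovl τ γ)
        (measurableSet_cut B K N) hD (fun d => d) (fun d => lamF d * N)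
        (fun d => mul_nonneg (hlamF d) hN'.le) (e := (N : ℝ) * η)
        (fun ω hω => by
          have hmem : ovl τ γ ω ∈ C := ⟨ovl_clean γ τ ω, fun i =>
            (abs_ovl_le hτ.le γ hN1 hω i).trans (by
              simp only [L]
              linarith [le_max_left (τ * B) 0])⟩
          obtain ⟨d, hd, hdist⟩ := Set.mem_iUnion₂.1 (hDcov hmem)
          refine ⟨d, hd, ?_⟩
          rw [mul_right_comm, mul_comm _ (N : ℝ)]
          exact mul_le_mul_of_nonneg_left hdist.le hN'.le)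
        hc.1 (fun d => (zpen_facts hf hb γ (hlamF d) d hτ.le hN1 hc.2).choose_spec G |>.1)
      simp only [e, X]
      linarith
    have hmean := mean_sup_le (μ := rowsLaw N) hD (X := X)
      (fun d => (dev_log_zpen hf hb γ (hlamF d) d hb0 hτ.le hN1 hc.2).1)
      (v := √(N : ℝ) * (2 * b))
      (fun d => (dev_log_zpen hf hb γ (hlamF d) d hb0 hτ.le hN1 hc.2).2)
      ((hzi N).sub (integrable_const e)) hpt
    simp only [Pi.sub_apply] at hmean
    rw [integral_sub (hzi N) (integrable_const e), integral_const, probReal_univ, one_smul] at hmean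
    have hsup : D.sup' hD (fun d => ∫ G, X d G ∂rowsLaw N) ≤ N * (T + η) :=
      Finset.sup'_le _ _ fun d hd => by
        have := hN d hd hc.2
        rwa [freePen, one_div_mul_eq_div, div_le_iff₀' hN'] at this
    rw [free_rows τ hf, one_div_mul_eq_div, div_le_iff₀' hN']
    rw [div_le_iff₀' hN'] at hsmall
    simp only [e] at hmean
    have h4 : 0 ≤ (N : ℝ) * η := by positivity
    linarith
  have hne : Sset.Nonempty := by
    by_contra hne
    obtain ⟨N, hN, hN1⟩ := ((hupper (1 / 8) (by norm_num)).and (eventually_ge_atTop 1)).exists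
    simp only [T, if_neg hne] at hN
    linarith [hfree_low N hN1]
  have hM : T = sSup Sset := by
    simp only [T, if_pos hne]
    refine max_eq_left (not_lt.1 fun hlt => ?_)
    obtain ⟨N, hN, hN1⟩ := ((hupper (1 / 8) (by norm_num)).and (eventually_ge_atTop 1)).exists
    simp only [T, if_pos hne, max_eq_right hlt.le] at hN
    linarith [hfree_low N hN1]
  refine ⟨sSup Sset, Metric.tendsto_nhds.2 fun ε hε => ?_, isLUB_csSup hne hbdd⟩
  obtain ⟨_, ⟨d, hd, rfl⟩, hdε⟩ :=
    exists_lt_of_lt_csSup hne (show sSup Sset - ε / 4 < _ by linarith)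
  filter_upwards [hupper (ε / 8) (by linarith), hlower d hd (ε / 4) (by linarith)] with N h1 h2
  rw [hM] at h1
  rw [Real.dist_eq, abs_lt]
  constructor <;> linarith [h2.1]

end Vale.Agent.P166.Pen
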