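import Vale.Agent.P166.Pen.PenPoint

/-!
Centres whose diagonal exceeds what the cut allows cost more than any bounded free energy.
-/

open MeasureTheory ProbabilityTheory Filter Topology Finset

namespace Vale.Agent.P166.Pen

open Vale.Agent.P166 Vale.Agent.P166.Nested

variable {d N : ℕ}

theorem sum_diag_ovl_le {τ : ℝ} (hτ : 0 ≤ τ) (γ : Fin d → ℝ) (ω : Fin d → Fin N → ℝ) :
    ∑ t, ∑ k, ovl τ γ ω (t, k, k) ≤ τ / N * ∑ k, ∑ j, ω k j ^ 2 := by
  classical
  rw [Finset.sum_comm, Finset.mul_sum]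
  refine Finset.sum_le_sum fun k _ => ?_
  have e : ∀ t, ovl τ γ ω (t, k, k) =
      τ / N * ∑ j ∈ univ.filter (fun j => typ γ j = t), if k ∈ typ γ j then ω k j ^ 2 else 0 := by
    intro t
    simp only [ovl, and_self]
    split_ifs with h
    · refine congrArg _ (Finset.sum_congr rfl fun j hj => ?_)
      rw [(Finset.mem_filter.1 hj).2, if_pos h, sq]
    · rw [Finset.sum_eq_zero fun j hj => ?_, mul_zero]
      rw [(Finset.mem_filter.1 hj).2, if_neg h]
  simp only [e, ← Finset.mul_sum]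
  refine mul_le_mul_of_nonneg_left ?_ (div_nonneg hτ (Nat.cast_nonneg N))
  rw [Finset.sum_fiberwise]
  exact Finset.sum_le_sum fun j _ => by split_ifs <;> first | exact le_rfl | exact sq_nonneg _

/-- Centres outside the cut cost more than any bounded free energy. -/
theorem freePen_big_centre {τ b : ℝ} (hτ : 0 < τ) {f : (Fin d → ℝ) → ℝ} (hf : Continuous f)
    (hb : ∀ y, |f y| ≤ b) :
    ∃ B0 : ℝ, ∀ B ≥ B0, ∀ (γ : Fin d → ℝ) (dd : OIdx d → ℝ),
      ¬(((∑ t, ∑ k, dd (t, k, k)) + d) / τ + 2 * d ≤ B) →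
      ∃ lam0 : ℝ, ∀ lam ≥ lam0, ∀ᶠ N in atTop, freePen τ f γ B lam dd N ≤ -(2 * b + 1) := by
  classical
  have hb0 : 0 ≤ b := (abs_nonneg _).trans (hb 0)
  obtain ⟨B1, hB1⟩ := cut_eventually (K := d) b
  set C : ℝ := 2 * d + ((d : ℝ) + 1) / τ
  set B2 : ℝ := C + 4 * (3 * b + 2 + d * |Real.log (chi (1 / 4))|)
  refine ⟨max B1 B2, fun B hB γ dd hbig => ?_⟩
  set c : ℝ := (Fintype.card (Finset (Fin d) × Fin d) : ℝ) + 1
  have hc : 0 < c := by positivity
  refine ⟨c * (3 * b + 2), fun lam hlam => ?_⟩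
  have hlam0 : 0 ≤ lam := le_trans (by positivity) hlam
  filter_upwards [hB1 B (le_of_max_le_left hB), eventually_ge_atTop 1] with N hcut hN
  have hS := hcut.2
  have hN' : (0 : ℝ) < N := Nat.cast_pos.2 hN
  have hN1 : (1 : ℝ) ≤ N := Nat.one_le_cast.2 hN
  set A := (cutSet (B - C) d N)ᶜ
  have hA : MeasurableSet A := (measurableSet_cut _ _ _).compl
  have hfar : ∀ ω ∉ A, 1 / c ≤ ∑ i, (ovl τ γ ω i - dd i) ^ 2 := by
    intro ω hω
    simp only [A, cutSet, Set.mem_compl_iff, not_not, Set.mem_ofPred_eq] at hω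
    set S1 := ∑ t, ∑ k, ovl τ γ ω (t, k, k)
    set S2 := ∑ t, ∑ k, dd (t, k, k)
    have h1 : S1 ≤ τ * (B - C) := (sum_diag_ovl_le hτ.le γ ω).trans (by
      refine (mul_le_mul_of_nonneg_left hω (div_nonneg hτ.le hN'.le)).trans_eq ?_
      field_simp)
    have h2 : τ * B < S2 + d + 2 * d * τ := by
      by_contra h
      refine hbig ?_
      rw [← le_sub_iff_add_le, div_le_iff₀ hτ]
      linarith
    have h3 : 1 ≤ S2 - S1 := by
      have e : τ * C = 2 * d * τ + d + 1 := by simp only [C]; field_simp; ring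
      linarith
    have h4 : (S2 - S1) ^ 2 ≤ c * ∑ i, (ovl τ γ ω i - dd i) ^ 2 := by
      have e : S2 - S1 = ∑ p : Finset (Fin d) × Fin d,
          (1 : ℝ) * (dd (p.1, p.2, p.2) - ovl τ γ ω (p.1, p.2, p.2)) := by
        simp [S1, S2, Fintype.sum_prod_type, Finset.sum_sub_distrib]
      rw [e]
      refine (Finset.sum_mul_sq_le_sq_mul_sq _ _ _).trans ?_
      simp only [one_pow, Finset.sum_const, Finset.card_univ, nsmul_eq_mul, mul_one]
      refine mul_le_mul (by simp [c]) ?_ (Finset.sum_nonneg fun _ _ => sq_nonneg _) hc.le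
      rw [Fintype.sum_prod_type, Fintype.sum_prod_type (f := fun i : OIdx d => _)]
      refine Finset.sum_le_sum fun t _ => ?_
      rw [Fintype.sum_prod_type]
      refine Finset.sum_le_sum fun k _ => ?_
      rw [← neg_sq, neg_sub]
      exact Finset.single_le_sum (f := fun l => (ovl τ γ ω (t, k, l) - dd (t, k, l)) ^ 2)
        (fun l _ => sq_nonneg _) (mem_univ k)
    rw [div_le_iff₀' hc]
    nlinarith
  have hchi : 0 < chi (1 / 4) := by unfold chi; positivity
  have hPA : (spinLaw d N).real A ≤ Real.exp (-(3 * b + 2) * N) := by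
    refine (cut_tail (B - C)).trans ?_
    rw [mul_comm (-(3 * b + 2)), Real.exp_nat_mul]
    refine pow_le_pow_left₀ (by positivity) ?_ N
    rw [← Real.exp_log (pow_pos hchi d), Real.log_pow, ← Real.exp_add, Real.exp_le_exp]
    have h5 := le_of_max_le_right hB
    simp only [B2] at h5
    nlinarith [mul_le_mul_of_nonneg_left (le_abs_self (Real.log (chi (1 / 4))))
      (Nat.cast_nonneg d : (0 : ℝ) ≤ d)]
  have hlamA : Real.exp (-(lam * N * (1 / c))) ≤ Real.exp (-(3 * b + 2) * N) := by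
    rw [Real.exp_le_exp]
    have h : 3 * b + 2 ≤ lam * (1 / c) := by
      rw [mul_one_div, le_div_iff₀ hc]
      linarith
    nlinarith
  obtain ⟨C', hC'⟩ := zpen_facts hf hb γ hlam0 dd hτ.le hN hS
  have hi := (dev_log_zpen hf hb γ hlam0 dd hb0 hτ.le hN hS).1
  have hpt : ∀ G, Real.log (zpen (spinLaw d N) (ene τ f γ G) (ovl τ γ) (cutSet B d N) (lam * N) dd)
      ≤ -(2 * b + 1) * N := fun G => by
    have h := zpen_le_of_event (π := spinLaw d N) (S := cutSet B d N)
      (measurable_eneG τ hf γ G) (abs_ene_le hb γ G)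
      (measurable_ovl τ γ) (mul_nonneg hlam0 hN'.le) dd hA hfar
    refine (Real.log_le_log (hC' G).1 (h.trans (mul_le_mul_of_nonneg_left (add_le_add hPA hlamA)
      (Real.exp_pos _).le))).trans ?_
    rw [← two_mul, Real.log_mul (Real.exp_pos _).ne' (by positivity),
      Real.log_mul two_ne_zero (Real.exp_pos _).ne', Real.log_exp, Real.log_exp]
    have h2 : Real.log 2 ≤ 1 := by linarith [Real.log_le_sub_one_of_pos (two_pos : (0 : ℝ) < 2)]
    linarith
  rw [freePen, one_div_mul_eq_div, div_le_iff₀ hN']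
  exact (integral_mono hi (integrable_const _) hpt).trans_eq (by simp)

end Vale.Agent.P166.Pen
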