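import Mathlib.MeasureTheory.Constructions.Pi
import Mathlib.MeasureTheory.Integral.Prod
import Mathlib.MeasureTheory.Integral.Bochner.Basic
import Mathlib.Probability.Moments.Variance

/-!
Functions of independent coordinates with bounded differences have small variance.
-/

open MeasureTheory

namespace Vale.Agent.P166.Pen

variable {Ω : Type*} [MeasurableSpace Ω] {μ : Measure Ω} [IsProbabilityMeasure μ]

theorem abs_avg_sub_le {f : Ω → ℝ} {c a : ℝ} (hf : Integrable f μ) (h : ∀ x, |f x - a| ≤ c) :
    |(∫ x, f x ∂μ) - a| ≤ c := by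
  have e : (∫ x, f x ∂μ) - a = ∫ x, (f x - a) ∂μ := by
    rw [integral_sub hf (integrable_const _)]; simp
  rw [e]
  refine (norm_integral_le_of_norm_le_const (f := fun x => f x - a) (C := c)
    (ae_of_all _ fun x => h x)).trans ?_
  simp

/-- Variance bound from bounded differences. -/
theorem var_le_of_diff : ∀ {n : ℕ} {F : (Fin n → Ω) → ℝ} {c C : ℝ}, Measurable F →
    (∀ x, |F x| ≤ C) → (∀ x i y, |F (Function.update x i y) - F x| ≤ c) →
      ∫ x, (F x - ∫ y, F y ∂Measure.pi fun _ : Fin n => μ) ^ 2 ∂Measure.pi (fun _ : Fin n => μ)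
        ≤ n * c ^ 2
  | 0, F, c, C, _, _, _ => by
    have h : ∀ x : Fin 0 → Ω, F x = F default := fun x => congrArg F (Subsingleton.elim _ _)
    simp [h]
  | n + 1, F, c, C, hF, hC, hd => by
    set π := Measure.pi fun _ : Fin n => μ
    set e := MeasurableEquiv.piFinSuccAbove (fun _ : Fin (n + 1) => Ω) 0
    have he : MeasurePreserving e (Measure.pi fun _ => μ) (μ.prod π) :=
      measurePreserving_piFinSuccAbove (fun _ : Fin (n + 1) => μ) 0
    set f : Ω × (Fin n → Ω) → ℝ := fun p => F (e.symm p) with hfdef
    have hsymm : ∀ p, e.symm p = Fin.cons p.1 p.2 := fun p => by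
      simp [e, MeasurableEquiv.piFinSuccAbove]; rfl
    have hfm : Measurable f := hF.comp e.symm.measurable
    have hfb : ∀ p, |f p| ≤ C := fun p => hC _
    have hfd1 : ∀ a b x, |f (a, x) - f (b, x)| ≤ c := fun a b x => by
      simp only [hfdef, hsymm]
      simpa [Fin.update_cons_zero] using hd (Fin.cons b x) 0 a
    have hfd2 : ∀ a x i y, |f (a, Function.update x i y) - f (a, x)| ≤ c := fun a x i y => by
      simp only [hfdef, hsymm, Fin.cons_update]
      exact hd _ _ _
    have hbd : ∀ {α : Type _} [MeasurableSpace α] {ν : Measure α} [IsFiniteMeasure ν] {g : α → ℝ}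
        {B : ℝ}, Measurable g → (∀ x, |g x| ≤ B) → Integrable g ν := fun hg hb =>
      (integrable_const _).mono' hg.aestronglyMeasurable (ae_of_all _ fun x => hb x)
    set G : (Fin n → Ω) → ℝ := fun x => ∫ a, f (a, x) ∂μ
    have hGm : Measurable G :=
      (hfm.comp measurable_swap).stronglyMeasurable.integral_prod_right'.measurable
    have hGb : ∀ x, |G x| ≤ C := fun x =>
      (norm_integral_le_of_norm_le_const (f := fun a => f (a, x)) (C := C)
        (ae_of_all _ fun a => hfb _)).trans (by simp)
    have hia : ∀ x, Integrable (fun a => f (a, x)) μ := fun x =>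
      hbd (hfm.comp (measurable_id.prodMk measurable_const)) fun a => hfb _
    have hGd : ∀ x i y, |G (Function.update x i y) - G x| ≤ c := fun x i y => by
      simp only [G, ← integral_sub (hia _) (hia _)]
      exact (norm_integral_le_of_norm_le_const (C := c)
        (f := fun a => f (a, Function.update x i y) - f (a, x))
        (ae_of_all _ fun a => hfd2 a x i y)).trans (by simp)
    have hfG : ∀ p, |f p - G p.2| ≤ c := fun p => by
      rw [abs_sub_comm]
      exact abs_avg_sub_le (hia _) fun a => hfd1 a p.1 p.2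
    have ih := var_le_of_diff hGm hGb hGd
    set m := ∫ x, G x ∂π
    have hm : ∫ p, f p ∂μ.prod π = m := by
      rw [integral_prod_symm f (hbd hfm hfb)]
    have hmain : ∫ x, (F x - ∫ y, F y ∂Measure.pi fun _ => μ) ^ 2 ∂Measure.pi (fun _ => μ)
        = ∫ p, (f p - m) ^ 2 ∂μ.prod π := by
      have h1 : ∫ y, F y ∂Measure.pi (fun _ => μ) = m := by
        rw [← hm, ← he.integral_comp e.measurableEmbedding]
        simp [hfdef]
      rw [h1, ← he.integral_comp e.measurableEmbedding]
      simp [hfdef]
    rw [hmain]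
    have hmb : |m| ≤ C := (norm_integral_le_of_norm_le_const (f := G) (C := C)
      (ae_of_all _ hGb)).trans (by simp)
    have hi2 : Integrable (fun p : Ω × (Fin n → Ω) => (f p - m) ^ 2) (μ.prod π) :=
      hbd ((hfm.sub_const m).pow_const 2) (B := (2 * C) ^ 2) fun p => by
        rw [abs_pow]
        exact pow_le_pow_left₀ (abs_nonneg _) ((abs_sub _ _).trans (by linarith [hfb p])) 2
    rw [integral_prod_symm _ hi2]
    have hGi : Integrable (fun x => (G x - m) ^ 2) π :=
      hbd ((hGm.sub_const m).pow_const 2) (B := (2 * C) ^ 2) fun x => by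
        rw [abs_pow]
        exact pow_le_pow_left₀ (abs_nonneg _) ((abs_sub _ _).trans (by linarith [hGb x])) 2
    have hstep : ∀ x, ∫ a, (f (a, x) - m) ^ 2 ∂μ ≤ c ^ 2 + (G x - m) ^ 2 := fun x => by
      have hsq : ∀ a, (f (a, x) - G x) ^ 2 ≤ c ^ 2 := fun a => sq_le_sq' (abs_le.1 (hfG (a, x))).1
        (abs_le.1 (hfG (a, x))).2
      have i1 : Integrable (fun a => (f (a, x) - G x) ^ 2) μ :=
        hbd (((hfm.comp (measurable_id.prodMk measurable_const)).sub_const _).pow_const 2)
          (B := c ^ 2) fun a => by rw [abs_pow, sq_abs]; exact hsq a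
      have i2 : Integrable (fun a => 2 * (G x - m) * (f (a, x) - G x)) μ :=
        ((hia x).sub (integrable_const _)).const_mul _
      have e : ∀ a, (f (a, x) - m) ^ 2
          = ((f (a, x) - G x) ^ 2 + 2 * (G x - m) * (f (a, x) - G x)) + (G x - m) ^ 2 := fun a => by
        ring
      simp only [e]
      rw [integral_add (i1.fun_add i2) (integrable_const _), integral_add i1 i2, integral_const_mul,
        integral_sub (hia x) (integrable_const _)]
      simp only [integral_const, probReal_univ, one_smul, G, sub_self, mul_zero, add_zero]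
      refine add_le_add_left ((integral_mono i1 (integrable_const _) hsq).trans_eq (by simp)) _
    refine (integral_mono hi2.integral_prod_right ((integrable_const _).add hGi) hstep).trans ?_
    rw [integral_add' (integrable_const _) hGi, integral_const, probReal_univ, one_smul]
    push_cast
    linarith

/-- Mean deviation bound from bounded differences. -/
theorem dev_le_of_diff {n : ℕ} {F : (Fin n → Ω) → ℝ} {c C : ℝ} (hF : Measurable F)
    (hC : ∀ x, |F x| ≤ C) (hc : 0 ≤ c) (hd : ∀ x i y, |F (Function.update x i y) - F x| ≤ c) :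
    ∫ x, |F x - ∫ y, F y ∂Measure.pi fun _ : Fin n => μ| ∂Measure.pi (fun _ : Fin n => μ)
      ≤ √(n : ℝ) * c := by
  set π := Measure.pi fun _ : Fin n => μ
  set m := ∫ y, F y ∂π
  have hv := var_le_of_diff (μ := μ) hF hC hd
  rcases eq_or_lt_of_le (mul_nonneg (Real.sqrt_nonneg (n : ℝ)) hc) with h0 | hpos
  · have hz : ∫ x, (F x - m) ^ 2 ∂π ≤ 0 := hv.trans_eq (by
      rcases mul_eq_zero.1 h0.symm with h | h
      · rw [show (n : ℝ) = 0 from (Real.sqrt_eq_zero (Nat.cast_nonneg n)).1 h]; simp
      · subst h; simp)
    have hi : Integrable (fun x => (F x - m) ^ 2) π :=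
      (integrable_const ((C + |m|) ^ 2)).mono' ((hF.sub_const m).pow_const 2).aestronglyMeasurable
        (ae_of_all _ fun x => by
          rw [Real.norm_eq_abs, abs_pow]
          exact pow_le_pow_left₀ (abs_nonneg _) ((abs_sub _ _).trans (by linarith [hC x])) 2)
    have hae := (integral_eq_zero_iff_of_nonneg (fun x => sq_nonneg _) hi).1
      (le_antisymm hz (integral_nonneg fun x => sq_nonneg _))
    rw [← h0]
    refine (integral_eq_zero_of_ae ?_).le
    filter_upwards [hae] with x hx
    simpa using hx
  · set t := √(n : ℝ) * c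
    have hi : Integrable (fun x => (F x - m) ^ 2) π :=
      (integrable_const ((C + |m|) ^ 2)).mono' ((hF.sub_const m).pow_const 2).aestronglyMeasurable
        (ae_of_all _ fun x => by
          rw [Real.norm_eq_abs, abs_pow]
          exact pow_le_pow_left₀ (abs_nonneg _) ((abs_sub _ _).trans (by linarith [hC x])) 2)
    have hpt : ∀ x, |F x - m| ≤ (F x - m) ^ 2 / (2 * t) + t / 2 := fun x => by
      have : 0 ≤ (|F x - m| - t) ^ 2 / (2 * t) := by positivity
      have e : (|F x - m| - t) ^ 2 / (2 * t) = (F x - m) ^ 2 / (2 * t) + t / 2 - |F x - m| := by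
        rw [sub_sq, sq_abs]; field_simp; ring
      linarith
    refine (integral_mono_of_nonneg (ae_of_all _ fun x => abs_nonneg _)
      ((hi.div_const _).add (integrable_const _)) (ae_of_all _ hpt)).trans ?_
    rw [integral_add' (hi.div_const _) (integrable_const _), integral_div, integral_const,
      probReal_univ, one_smul]
    have ht2 : t ^ 2 = n * c ^ 2 := by rw [mul_pow, Real.sq_sqrt (Nat.cast_nonneg n)]
    have : (∫ x, (F x - m) ^ 2 ∂π) / (2 * t) ≤ t ^ 2 / (2 * t) :=
      div_le_div_of_nonneg_right (by rw [ht2]; exact hv) (by positivity)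
    have e : t ^ 2 / (2 * t) = t / 2 := by field_simp
    linarith

end Vale.Agent.P166.Pen
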