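import Vale.Agent.P166.Pen.PenLimit

/-!
Norm moments of Gaussian spins under potentials bounded above and at most quadratic below.
-/

open MeasureTheory ProbabilityTheory Filter Topology Finset

namespace Vale.Agent.P166.Pen

open Vale.Agent.P166

variable {K N n : ℕ}

/-- The energy with one potential per site. -/
noncomputable def eneV (τ : ℝ) (φ : Fin N → (Fin K → ℝ) → ℝ) (γ : Fin K → ℝ)
    (G : Fin N → Fin N → ℝ) (ω : Fin K → Fin N → ℝ) : ℝ :=
  ∑ i, φ i (rowField τ γ G ω i)

/-- Normalised squared norm of the spins. -/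
noncomputable def xnorm (ω : Fin K → Fin N → ℝ) : ℝ := (∑ k, ∑ b, ω k b ^ 2) / N

/-- Normalised squared norm of the rows. -/
noncomputable def gnorm (G : Fin N → Fin N → ℝ) : ℝ := (∑ i, ∑ b, G i b ^ 2) / N ^ 2

theorem xnorm_nonneg (ω : Fin K → Fin N → ℝ) : 0 ≤ xnorm ω :=
  div_nonneg (Finset.sum_nonneg fun _ _ => Finset.sum_nonneg fun _ _ => sq_nonneg _)
    (Nat.cast_nonneg N)

theorem gnorm_nonneg (G : Fin N → Fin N → ℝ) : 0 ≤ gnorm G :=
  div_nonneg (Finset.sum_nonneg fun _ _ => Finset.sum_nonneg fun _ _ => sq_nonneg _) (sq_nonneg _)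

theorem pow_four_le_exp (x : ℝ) : x ^ 4 ≤ 32 * Real.exp (x ^ 2 / 4) := by
  have h := Real.pow_div_factorial_le_exp (x ^ 2 / 4) (by positivity) 2
  norm_num [Nat.factorial] at h
  linarith [show (x ^ 2 / 4) ^ 2 / 2 = x ^ 4 / 32 by ring]

theorem chi_quarter_le : chi (1 / 4) ≤ 2 := by
  rw [chi, inv_le_comm₀ (by positivity) two_pos]
  exact Real.le_sqrt_of_sq_le (by norm_num)

/-- Fourth moment of a linear functional. -/
theorem lin_fourth (v : Fin n → ℝ) :
    Integrable (fun g : Fin n → ℝ => (∑ i, g i * v i) ^ 4) (gs n) ∧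
      ∫ g, (∑ i, g i * v i) ^ 4 ∂gs n ≤ 64 * (∑ i, v i ^ 2) ^ 2 := by
  set c := ∑ i, v i ^ 2 with hcdef
  have hc : 0 ≤ c := Finset.sum_nonneg fun i _ => sq_nonneg _
  rcases hc.eq_or_lt with h0 | h0
  · have hv : ∀ i, v i = 0 := fun i => by
      simpa using (Finset.sum_eq_zero_iff_of_nonneg fun j _ => sq_nonneg (v j)).1 h0.symm i
        (Finset.mem_univ i)
    simp [hv, ← h0]
  set u : Fin n → ℝ := fun i => v i / √c
  have hu : ∑ i, u i ^ 2 = 1 := by
    simp only [u, div_pow, Real.sq_sqrt hc, ← Finset.sum_div]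
    exact div_self h0.ne'
  obtain ⟨hi, he⟩ := exp_sq_lin u hu (show (1 / 4 : ℝ) < 1 / 2 by norm_num)
  have hpt : ∀ g : Fin n → ℝ, (∑ i, g i * v i) ^ 4
      ≤ 32 * c ^ 2 * Real.exp (1 / 4 * (∑ i, g i * u i) ^ 2) := fun g => by
    have e : ∑ i, g i * v i = √c * ∑ i, g i * u i := by
      rw [Finset.mul_sum]
      refine Finset.sum_congr rfl fun i _ => ?_
      simp only [u]
      field_simp
    rw [e, mul_pow, show √c ^ 4 = c ^ 2 by rw [show (4 : ℕ) = 2 * 2 from rfl, pow_mul, Real.sq_sqrt hc],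
      show 1 / 4 * (∑ i, g i * u i) ^ 2 = (∑ i, g i * u i) ^ 2 / 4 by ring]
    calc c ^ 2 * (∑ i, g i * u i) ^ 4 ≤ c ^ 2 * (32 * Real.exp ((∑ i, g i * u i) ^ 2 / 4)) :=
          mul_le_mul_of_nonneg_left (pow_four_le_exp _) (sq_nonneg c)
      _ = _ := by ring
  have hint : Integrable (fun g : Fin n → ℝ => (∑ i, g i * v i) ^ 4) (gs n) :=
    (hi.const_mul (32 * c ^ 2)).mono' (Continuous.aestronglyMeasurable (by fun_prop)) (ae_of_all _ fun g => by
      rw [Real.norm_eq_abs, abs_of_nonneg (Even.pow_nonneg (by decide) _)]; exact hpt g)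
  refine ⟨hint, (integral_mono hint (hi.const_mul _) hpt).trans ?_⟩
  rw [integral_const_mul, he]
  nlinarith [mul_le_mul_of_nonneg_left chi_quarter_le (show 0 ≤ 32 * c ^ 2 by positivity)]

theorem gnorm_sq_moment (hN : 0 < N) :
    Integrable (fun G : Fin N → Fin N → ℝ => gnorm G ^ 2) (rowsLaw N) ∧
      ∫ G, gnorm G ^ 2 ∂rowsLaw N ≤ 64 := by
  have hN' : (0 : ℝ) < N := Nat.cast_pos.2 hN
  have hpt : ∀ G : Fin N → Fin N → ℝ, gnorm G ^ 2 ≤ (∑ i, ∑ b, G i b ^ 4) / (N : ℝ) ^ 2 := fun G => by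
    have h := sq_sum_le_card_mul_sum_sq (s := (univ : Finset (Fin N × Fin N)))
      (f := fun p => G p.1 p.2 ^ 2)
    simp only [Fintype.sum_prod_type, card_univ, Fintype.card_prod, Fintype.card_fin, ← pow_mul] at h
    rw [gnorm, div_pow, div_le_div_iff₀ (by positivity) (by positivity)]
    push_cast at h
    nlinarith [mul_le_mul_of_nonneg_right h (sq_nonneg (N : ℝ))]
  have h1 : ∀ i b, Integrable (fun G : Fin N → Fin N → ℝ => G i b ^ 4) (rowsLaw N) ∧
      ∫ G, G i b ^ 4 ∂rowsLaw N ≤ 64 := fun i b => by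
    obtain ⟨hi, he⟩ := lin_fourth (Pi.single b 1 : Fin N → ℝ)
    simp only [Pi.single_apply, mul_ite, mul_one, mul_zero, Finset.sum_ite_eq', mem_univ, if_true,
      ite_pow, one_pow, ne_eq, OfNat.ofNat_ne_zero, not_false_eq_true, zero_pow] at hi he
    have hmp : MeasurePreserving (fun G : Fin N → Fin N → ℝ => G i) (rowsLaw N) (gs N) :=
      measurePreserving_eval (fun _ : Fin N => gs N) i
    refine ⟨hmp.integrable_comp_of_integrable hi, le_of_eq_of_le ?_ he⟩
    rw [← hmp.map_eq, integral_map hmp.measurable.aemeasurable (Continuous.aestronglyMeasurable (by fun_prop))]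
  have hsum : Integrable (fun G : Fin N → Fin N → ℝ => (∑ i, ∑ b, G i b ^ 4) / (N : ℝ) ^ 2)
      (rowsLaw N) :=
    (integrable_finsetSum _ fun i _ => integrable_finsetSum _ fun b _ => (h1 i b).1).div_const _
  have hint : Integrable (fun G : Fin N → Fin N → ℝ => gnorm G ^ 2) (rowsLaw N) :=
    hsum.mono' (Continuous.aestronglyMeasurable (by unfold gnorm; fun_prop)) (ae_of_all _ fun G => by
      rw [Real.norm_eq_abs, abs_of_nonneg (sq_nonneg _)]; exact hpt G)
  refine ⟨hint, (integral_mono hint hsum hpt).trans ?_⟩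
  rw [integral_div, integral_finsetSum _ fun i _ => integrable_finsetSum _ fun b _ => (h1 i b).1,
    div_le_iff₀ (by positivity)]
  simp only [integral_finsetSum _ fun b _ => (h1 _ b).1]
  refine (Finset.sum_le_sum fun i _ => Finset.sum_le_sum fun b _ => (h1 i b).2).trans_eq ?_
  simp; ring

theorem sum_active_sq_le (m : ℕ) (v : Fin N → ℝ) :
    ∑ b : Fin N, (if (b : ℕ) < m then v b else 0) ^ 2 ≤ ∑ b, v b ^ 2 :=
  Finset.sum_le_sum fun b _ => by split_ifs <;> simp [sq_nonneg]

/-- Second moment of one field under the prior. -/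
theorem field_second {τ : ℝ} (hτ : 0 ≤ τ) (γ : Fin K → ℝ) (G : Fin N → Fin N → ℝ) (i : Fin N)
    (k : Fin K) :
    Integrable (fun ω => rowField τ γ G ω i k ^ 2) (spinLaw K N) ∧
      ∫ ω, rowField τ γ G ω i k ^ 2 ∂spinLaw K N ≤ τ * (∑ b, G i b ^ 2) / N := by
  set v : Fin N → ℝ := fun b => (if (b : ℕ) < blk γ N k then G i b / √(N : ℝ) else 0) * √τ
  have e : ∀ ω : Fin K → Fin N → ℝ, rowField τ γ G ω i k ^ 2 = (∑ b, ω k b * v b) ^ 2 := fun ω => by
    simp only [rowField, v]
    exact congrArg (· ^ 2) (Finset.sum_congr rfl fun b _ => by ring)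
  have hmp : MeasurePreserving (fun ω : Fin K → Fin N → ℝ => ω k) (spinLaw K N) (gs N) :=
    measurePreserving_eval (fun _ : Fin K => gs N) k
  have hi : Integrable (fun h : Fin N → ℝ => (∑ b, h b * v b) ^ 2) (gs N) :=
    ((lin_fourth v).1.add (integrable_const 1)).mono' (Continuous.aestronglyMeasurable (by fun_prop)) (ae_of_all _ fun h => by
      rw [Real.norm_eq_abs, abs_of_nonneg (sq_nonneg _)]
      show _ ≤ (∑ b, h b * v b) ^ 4 + 1
      nlinarith [sq_nonneg ((∑ b, h b * v b) ^ 2 - 1)])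
  simp only [e]
  refine ⟨hmp.integrable_comp_of_integrable hi, ?_⟩
  rw [← integral_map (φ := fun ω : Fin K → Fin N → ℝ => ω k) (f := fun h => (∑ b, h b * v b) ^ 2)
    hmp.measurable.aemeasurable (Continuous.aestronglyMeasurable (by fun_prop)), hmp.map_eq]
  refine (lin_second_moment v (B := ∑ b, v b ^ 2) (Finset.sum_nonneg fun b _ => sq_nonneg _)
    fun x => (Finset.sum_mul_sq_le_sq_mul_sq _ _ _).trans_eq (mul_comm _ _)).trans ?_
  simp only [v, mul_pow, Real.sq_sqrt hτ, ← Finset.sum_mul]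
  have h := sum_active_sq_le (blk γ N k) fun b => G i b / √(N : ℝ)
  rw [mul_comm, mul_div_assoc]
  refine mul_le_mul_of_nonneg_left (h.trans_eq ?_) hτ
  simp only [div_pow, Real.sq_sqrt (Nat.cast_nonneg N), Finset.sum_div]

section

variable {τ C A : ℝ} (hτ : 0 ≤ τ) (hA : 0 ≤ A) (γ : Fin K → ℝ) {φ : Fin N → (Fin K → ℝ) → ℝ}
  (hc : ∀ i, Continuous (φ i)) (hup : ∀ i y, φ i y ≤ C)
  (hlo : ∀ i y, -(A * (1 + ∑ k, y k ^ 2)) ≤ φ i y)

include hc hup

omit hup in
theorem continuous_eneV :
    Continuous fun p : (Fin N → Fin N → ℝ) × (Fin K → Fin N → ℝ) => eneV τ φ γ p.1 p.2 := by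
  refine continuous_finsetSum _ fun i _ => (hc i).comp (continuous_pi fun k =>
    continuous_finsetSum _ fun b _ => ?_)
  split_ifs <;> fun_prop

theorem integrable_expV (G : Fin N → Fin N → ℝ) :
    Integrable (fun ω => Real.exp (eneV τ φ γ G ω)) (spinLaw K N) := by
  refine (integrable_const (Real.exp (N * C))).mono'
    (Real.continuous_exp.comp ((continuous_eneV γ hc).comp
      (Continuous.prodMk continuous_const continuous_id))).aestronglyMeasurable
    (ae_of_all _ fun ω => ?_)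
  rw [Real.norm_eq_abs, abs_of_pos (Real.exp_pos _), Real.exp_le_exp]
  exact (Finset.sum_le_sum fun i _ => hup i _).trans_eq (by simp)

omit hc in
theorem eneV_le (G : Fin N → Fin N → ℝ) (ω : Fin K → Fin N → ℝ) : eneV τ φ γ G ω ≤ N * C :=
  (Finset.sum_le_sum fun i _ => hup i _).trans_eq (by simp)

theorem expV_upper (G : Fin N → Fin N → ℝ) :
    ∫ ω, Real.exp (eneV τ φ γ G ω) ∂spinLaw K N ≤ Real.exp (N * C) :=
  (integral_mono (integrable_expV γ hc hup G) (integrable_const (Real.exp (N * C))) fun ω =>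
    Real.exp_le_exp.2 (eneV_le γ hup G ω)).trans_eq (by simp)

include hτ hA hlo

theorem expV_lower (hN : 0 < N) (G : Fin N → Fin N → ℝ) :
    Real.exp (-(A * N * (1 + τ * K * gnorm G))) ≤ ∫ ω, Real.exp (eneV τ φ γ G ω) ∂spinLaw K N := by
  set x0 := -(A * N * (1 + τ * K * gnorm G))
  set low : (Fin K → Fin N → ℝ) → ℝ :=
    fun ω => ∑ i, -(A * (1 + ∑ k, rowField τ γ G ω i k ^ 2))
  have hlow : Integrable low (spinLaw K N) := integrable_finsetSum _ fun i _ =>
    (((integrable_const 1).fun_add (integrable_finsetSum _ fun k _ =>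
      (field_second hτ γ G i k).1)).const_mul A).neg
  have hmean : x0 ≤ ∫ ω, low ω ∂spinLaw K N := by
    have hi : ∀ i : Fin N, ∫ ω, -(A * (1 + ∑ k, rowField τ γ G ω i k ^ 2)) ∂spinLaw K N
        = -(A * (1 + ∑ k, ∫ ω, rowField τ γ G ω i k ^ 2 ∂spinLaw K N)) := fun i => by
      rw [integral_neg, integral_const_mul, integral_add (integrable_const _)
        (integrable_finsetSum _ fun k _ => (field_second hτ γ G i k).1),
        integral_finsetSum _ fun k _ => (field_second hτ γ G i k).1]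
      simp
    have hb : ∀ i : Fin N, ∑ k, ∫ ω, rowField τ γ G ω i k ^ 2 ∂spinLaw K N
        ≤ K * (τ * (∑ b, G i b ^ 2) / N) := fun i => by
      refine (Finset.sum_le_sum fun k _ => (field_second hτ γ G i k).2).trans_eq ?_
      simp
    have hterm : ∀ i : Fin N, Integrable (fun ω => -(A * (1 + ∑ k, rowField τ γ G ω i k ^ 2)))
        (spinLaw K N) := fun i => (((integrable_const 1).fun_add (integrable_finsetSum _
      fun k _ => (field_second hτ γ G i k).1)).const_mul A).neg
    simp only [low]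
    rw [integral_finsetSum _ fun i _ => hterm i]
    simp only [hi]
    refine le_trans ?_ (Finset.sum_le_sum fun i _ => neg_le_neg
      (mul_le_mul_of_nonneg_left (add_le_add (le_refl (1 : ℝ)) (hb i)) hA))
    refine le_of_eq ?_
    simp only [x0, gnorm, Finset.sum_neg_distrib, ← Finset.mul_sum, Finset.sum_add_distrib,
      ← Finset.sum_div, ← Finset.mul_sum, neg_inj]
    simp
    field_simp
  refine le_trans ?_ (integral_mono
    (((integrable_const (1 - x0)).fun_add hlow).const_mul (Real.exp x0))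
    (integrable_expV γ hc hup G) fun ω => ?_)
  · rw [integral_const_mul, integral_add (integrable_const _) hlow, integral_const, probReal_univ,
      one_smul]
    exact le_mul_of_one_le_right (Real.exp_pos _).le (by linarith)
  · refine le_trans ?_ (Real.exp_le_exp.2 (show low ω ≤ eneV τ φ γ G ω from
      Finset.sum_le_sum fun i _ => hlo i _))
    have h := Real.add_one_le_exp (low ω - x0)
    calc Real.exp x0 * (1 - x0 + low ω) ≤ Real.exp x0 * Real.exp (low ω - x0) :=
          mul_le_mul_of_nonneg_left (by linarith) (Real.exp_pos _).le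
      _ = _ := by rw [← Real.exp_add]; ring_nf

/-- Second moment of the norm under the weights. -/
theorem xnorm_moment (hN : 0 < N) (G : Fin N → Fin N → ℝ) :
    Integrable (fun ω => xnorm ω ^ 2 * Real.exp (eneV τ φ γ G ω)) (spinLaw K N) ∧
      ∫ ω, xnorm ω ^ 2 * Real.exp (eneV τ φ γ G ω) ∂spinLaw K N
        ≤ ((8 * (|C| + A + K + A * τ * K * gnorm G)) ^ 2 + 128)
          * ∫ ω, Real.exp (eneV τ φ γ G ω) ∂spinLaw K N := by
  have hN' : (1 : ℝ) ≤ N := Nat.one_le_cast.2 hN
  set g := gnorm G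
  have hg : 0 ≤ g := gnorm_nonneg G
  set L := 8 * (|C| + A + K + A * τ * K * g)
  have hL : 0 ≤ L := by positivity
  set Z := ∫ ω, Real.exp (eneV τ φ γ G ω) ∂spinLaw K N
  obtain ⟨hi1, he1⟩ := integral_exp_sq (show (1 / 4 : ℝ) < 1 / 2 by norm_num)
  set P : (Fin K → Fin N → ℝ) → ℝ := fun ω => ∏ k, ∏ b, Real.exp (1 / 4 * ω k b ^ 2)
  have hP : Integrable P (spinLaw K N) := Integrable.fintype_prod
    (f := fun _ (h : Fin N → ℝ) => ∏ b, Real.exp (1 / 4 * h b ^ 2))
    fun _ => Integrable.fintype_prod fun _ => hi1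
  have hPe : ∫ ω, P ω ∂spinLaw K N = chi (1 / 4) ^ (K * N) := by
    rw [spinLaw, integral_fintype_prod_eq_prod (f := fun _ (h : Fin N → ℝ) =>
      ∏ b, Real.exp (1 / 4 * h b ^ 2)), Finset.prod_const, gs,
      integral_fintype_prod_eq_prod (f := fun _ (x : ℝ) => Real.exp (1 / 4 * x ^ 2))]
    simp only [he1, Finset.prod_const, Finset.card_univ, Fintype.card_fin, ← pow_mul]
    rw [mul_comm]
  set c1 := 128 * Real.exp (N * C - N * L / 8)
  have hpt : ∀ ω, xnorm ω ^ 2 * Real.exp (eneV τ φ γ G ω)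
      ≤ L ^ 2 * Real.exp (eneV τ φ γ G ω) + c1 * P ω := fun ω => by
    have hP0 : 0 ≤ P ω := Finset.prod_nonneg fun k _ => Finset.prod_nonneg fun b _ => (Real.exp_pos _).le
    rcases le_or_gt (xnorm ω) L with h | h
    · have : xnorm ω ^ 2 ≤ L ^ 2 := pow_le_pow_left₀ (xnorm_nonneg ω) h 2
      nlinarith [Real.exp_pos (eneV τ φ γ G ω), Real.exp_pos (N * C - N * L / 8)]
    · have hPω : P ω = Real.exp (N * xnorm ω / 4) := by
        simp only [P, ← Real.exp_sum, ← Finset.mul_sum, xnorm]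
        congr 1
        field_simp
      have hen : eneV τ φ γ G ω ≤ N * C :=
        (Finset.sum_le_sum fun i _ => hup i _).trans_eq (by simp)
      have hq : xnorm ω ^ 2 ≤ 128 * Real.exp (N * xnorm ω / 8) := by
        have hx := xnorm_nonneg ω
        have h2 := Real.pow_div_factorial_le_exp (N * xnorm ω / 8) (by positivity) 2
        norm_num [Nat.factorial] at h2
        have h3 : xnorm ω ^ 2 ≤ (N * xnorm ω) ^ 2 :=
          pow_le_pow_left₀ hx (le_mul_of_one_le_left hx hN') 2
        nlinarith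
      refine le_trans (mul_le_mul hq (Real.exp_le_exp.2 hen) (Real.exp_pos _).le (by positivity)) ?_
      refine le_add_of_nonneg_of_le (by positivity) ?_
      rw [hPω, mul_assoc, mul_assoc, ← Real.exp_add, ← Real.exp_add]
      refine mul_le_mul_of_nonneg_left (Real.exp_le_exp.2 ?_) (by norm_num)
      have := mul_le_mul_of_nonneg_left h.le (show (0 : ℝ) ≤ N / 8 by positivity)
      linarith
  have hiE := integrable_expV (τ := τ) γ hc hup G
  have hint : Integrable (fun ω => xnorm ω ^ 2 * Real.exp (eneV τ φ γ G ω)) (spinLaw K N) :=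
    ((hiE.const_mul _).fun_add (hP.const_mul _)).mono'
      ((Continuous.mul (by unfold xnorm; fun_prop) (Real.continuous_exp.comp
        ((continuous_eneV γ hc).comp (Continuous.prodMk continuous_const continuous_id)))).aestronglyMeasurable)
      (ae_of_all _ fun ω => by
        rw [Real.norm_eq_abs, abs_of_nonneg (by positivity)]; exact hpt ω)
  refine ⟨hint, (integral_mono hint ((hiE.const_mul _).fun_add (hP.const_mul _)) hpt).trans ?_⟩
  rw [integral_add (hiE.const_mul _) (hP.const_mul _), integral_const_mul, integral_const_mul, hPe,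
    add_mul]
  refine add_le_add le_rfl ?_
  simp only [c1]
  rw [mul_assoc]
  refine mul_le_mul_of_nonneg_left (le_trans ?_ (expV_lower hτ hA γ hc hup hlo hN G)) (by norm_num)
  have hchi : chi (1 / 4) ≤ Real.exp 1 := chi_quarter_le.trans (by linarith [Real.add_one_le_exp 1])
  refine (mul_le_mul_of_nonneg_left (pow_le_pow_left₀ (by unfold chi; positivity) hchi _)
    (Real.exp_pos _).le).trans ?_
  rw [← Real.exp_nat_mul, ← Real.exp_add, Real.exp_le_exp]
  simp only [L]
  push_cast
  nlinarith [le_abs_self C, abs_nonneg C]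

end

end Vale.Agent.P166.Pen
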