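import Vale.Agent.P166.Pen.BddDiff
import Mathlib.MeasureTheory.Integral.Bochner.Set
import Mathlib.Analysis.SpecialFunctions.Log.Basic

/-!
Free energies with a quadratic penalty of a statistic: comparison with the free energy itself
through a finite net of centres.
-/

open MeasureTheory

namespace Vale.Agent.P166.Pen

variable {E ι : Type*} [MeasurableSpace E] [Fintype ι]

/-- Partition function on `S` with the statistic `R` penalised around `d`. -/
noncomputable def zpen (π : Measure E) (H : E → ℝ) (R : E → ι → ℝ) (S : Set E) (κ : ℝ)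
    (d : ι → ℝ) : ℝ :=
  ∫ x in S, Real.exp (H x - κ * ∑ i, (R x i - d i) ^ 2) ∂π

variable {π : Measure E} [IsProbabilityMeasure π] {H : E → ℝ} {R : E → ι → ℝ} {S : Set E}
  {b κ : ℝ}

omit [MeasurableSpace E] in
theorem pen_nonneg (hκ : 0 ≤ κ) (x : E) (d : ι → ℝ) : 0 ≤ κ * ∑ i, (R x i - d i) ^ 2 :=
  mul_nonneg hκ (Finset.sum_nonneg fun _ _ => sq_nonneg _)

theorem integrable_exp_energy (hH : Measurable H) (hb : ∀ x, |H x| ≤ b) :
    Integrable (fun x => Real.exp (H x)) π :=
  (integrable_const (Real.exp b)).mono' hH.exp.aestronglyMeasurable (ae_of_all _ fun x => by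
    rw [Real.norm_eq_abs, abs_of_pos (Real.exp_pos _)]
    exact Real.exp_le_exp.2 (le_of_abs_le (hb x)))

theorem integrable_zpen (hH : Measurable H) (hb : ∀ x, |H x| ≤ b)
    (hR : ∀ i, Measurable fun x => R x i) (hκ : 0 ≤ κ) (d : ι → ℝ) :
    Integrable (fun x => Real.exp (H x - κ * ∑ i, (R x i - d i) ^ 2)) π :=
  (integrable_exp_energy hH hb).mono' (by fun_prop) (ae_of_all _ fun x => by
    rw [Real.norm_eq_abs, abs_of_pos (Real.exp_pos _)]
    exact Real.exp_le_exp.2 (by linarith [pen_nonneg (R := R) hκ x d]))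

theorem zpen_le_int (hH : Measurable H) (hb : ∀ x, |H x| ≤ b)
    (hR : ∀ i, Measurable fun x => R x i) (hκ : 0 ≤ κ) (d : ι → ℝ) :
    zpen π H R S κ d ≤ ∫ x, Real.exp (H x) ∂π :=
  (setIntegral_le_integral (integrable_zpen hH hb hR hκ d)
    (ae_of_all _ fun x => (Real.exp_pos _).le)).trans
    (integral_mono (integrable_zpen hH hb hR hκ d) (integrable_exp_energy hH hb)
      fun x => Real.exp_le_exp.2 (by linarith [pen_nonneg (R := R) hκ x d]))

theorem exp_le_zpen (hH : Measurable H) (hb : ∀ x, |H x| ≤ b)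
    (hR : ∀ i, Measurable fun x => R x i) (hκ : 0 ≤ κ) (hS : MeasurableSet S) (d : ι → ℝ) {P : ℝ}
    (hP : ∀ x ∈ S, ∑ i, (R x i - d i) ^ 2 ≤ P) :
    π.real S * Real.exp (-b - κ * P) ≤ zpen π H R S κ d := by
  refine le_of_eq_of_le ?_ (setIntegral_mono_on (integrableOn_const (measure_ne_top _ _))
    (integrable_zpen hH hb hR hκ d).integrableOn hS fun x hx =>
      show Real.exp (-b - κ * P) ≤ _ from Real.exp_le_exp.2 ?_)
  · rw [setIntegral_const, smul_eq_mul]
  · have := mul_le_mul_of_nonneg_left (hP x hx) hκ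
    linarith [neg_le_of_abs_le (hb x)]

/-- A centre far from all likely values of the statistic costs a lot. -/
theorem zpen_le_of_event (hH : Measurable H) (hb : ∀ x, |H x| ≤ b)
    (hR : ∀ i, Measurable fun x => R x i) (hκ : 0 ≤ κ) (d : ι → ℝ) {A : Set E}
    (hA : MeasurableSet A) {δ : ℝ} (hd : ∀ x ∉ A, δ ≤ ∑ i, (R x i - d i) ^ 2) :
    zpen π H R S κ d ≤ Real.exp b * (π.real A + Real.exp (-(κ * δ))) := by
  have hi := integrable_zpen (π := π) hH hb hR hκ d
  refine (setIntegral_le_integral hi (ae_of_all _ fun x => (Real.exp_pos _).le)).trans ?_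
  rw [← integral_add_compl hA hi, mul_add]
  refine add_le_add ?_ ?_
  · refine (setIntegral_mono_on hi.integrableOn (integrableOn_const (measure_ne_top _ _)) hA
      fun x _ => Real.exp_le_exp.2 (show H x - _ ≤ b by
        linarith [pen_nonneg (R := R) hκ x d, le_of_abs_le (hb x)])).trans_eq ?_
    rw [setIntegral_const, smul_eq_mul, mul_comm]
  · refine (setIntegral_mono_on hi.integrableOn (integrableOn_const (measure_ne_top _ _)) hA.compl
      fun x hx => show Real.exp (H x - _) ≤ Real.exp (b - κ * δ) from Real.exp_le_exp.2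
        (by linarith [mul_le_mul_of_nonneg_left (hd x hx) hκ, le_of_abs_le (hb x)])).trans ?_
    rw [setIntegral_const, smul_eq_mul, ← Real.exp_add, sub_eq_add_neg]
    exact mul_le_of_le_one_left (Real.exp_pos _).le measureReal_le_one

/-- The free partition function through the centres of a net. -/
theorem int_le_net (hH : Measurable H) (hb : ∀ x, |H x| ≤ b)
    (hR : ∀ i, Measurable fun x => R x i) (hκ : 0 ≤ κ) (hS : MeasurableSet S)
    (D : Finset (ι → ℝ)) {ε : ℝ} (hcov : ∀ x ∈ S, ∃ d ∈ D, ∑ i, (R x i - d i) ^ 2 ≤ ε) :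
    ∫ x, Real.exp (H x) ∂π
      ≤ Real.exp (κ * ε) * (∑ d ∈ D, zpen π H R S κ d) + Real.exp b * π.real Sᶜ := by
  have hi := integrable_exp_energy (π := π) hH hb
  rw [← integral_add_compl hS hi]
  refine add_le_add ?_ ?_
  · rw [Finset.mul_sum]
    simp only [zpen, ← integral_const_mul]
    rw [← integral_finsetSum _ fun d _ => ((integrable_zpen hH hb hR hκ d).const_mul _).integrableOn]
    refine setIntegral_mono_on hi.integrableOn (integrable_finsetSum _ fun d _ =>
      ((integrable_zpen hH hb hR hκ d).const_mul _).integrableOn) hS fun x hx => ?_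
    obtain ⟨d, hd, hdist⟩ := hcov x hx
    refine le_trans ?_ (Finset.single_le_sum (fun e _ => by positivity) hd)
    rw [← Real.exp_add, Real.exp_le_exp]
    linarith [mul_le_mul_of_nonneg_left hdist hκ]
  · refine (setIntegral_mono_on hi.integrableOn (integrableOn_const (measure_ne_top _ _)) hS.compl
      fun x _ => Real.exp_le_exp.2 (le_of_abs_le (hb x))).trans_eq ?_
    rw [setIntegral_const, smul_eq_mul, mul_comm]

/-- The free energy is at most the largest penalised one. -/
theorem log_int_le_net (hH : Measurable H) (hb : ∀ x, |H x| ≤ b)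
    (hR : ∀ i, Measurable fun x => R x i) (hκ : 0 ≤ κ) (hS : MeasurableSet S)
    {D : Finset (ι → ℝ)} (hD : D.Nonempty) {ε : ℝ}
    (hcov : ∀ x ∈ S, ∃ d ∈ D, ∑ i, (R x i - d i) ^ 2 ≤ ε)
    (hcut : 2 * (π.real Sᶜ * Real.exp (2 * b)) ≤ 1) (hz : ∀ d, 0 < zpen π H R S κ d) :
    Real.log (∫ x, Real.exp (H x) ∂π)
      ≤ D.sup' hD (fun d => Real.log (zpen π H R S κ d)) + κ * ε + Real.log (2 * D.card) := by
  set M := D.sup' hD fun d => Real.log (zpen π H R S κ d)
  set Z := ∫ x, Real.exp (H x) ∂π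
  have hcard : (0 : ℝ) < D.card := Nat.cast_pos.2 hD.card_pos
  have hlow : Real.exp (-b) ≤ Z := le_of_eq_of_le (by simp) (integral_mono (integrable_const _)
    (integrable_exp_energy hH hb) fun x => Real.exp_le_exp.2 (neg_le_of_abs_le (hb x)))
  have hsum : ∑ d ∈ D, zpen π H R S κ d ≤ D.card * Real.exp M := by
    rw [← nsmul_eq_mul]
    refine Finset.sum_le_card_nsmul _ _ _ fun d hd => ?_
    rw [← Real.exp_log (hz d)]
    exact Real.exp_le_exp.2 (Finset.le_sup' (fun d => Real.log (zpen π H R S κ d)) hd)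
  have hout : Real.exp b * π.real Sᶜ ≤ Z / 2 := by
    have e : Real.exp (2 * b) * Real.exp (-b) = Real.exp b := by rw [← Real.exp_add]; ring_nf
    nlinarith [mul_le_mul_of_nonneg_right hcut (Real.exp_pos (-b)).le,
      (measureReal_nonneg : 0 ≤ π.real Sᶜ)]
  have h := int_le_net (π := π) hH hb hR hκ hS D hcov
  have h2 : Z / 2 ≤ Real.exp (κ * ε) * (D.card * Real.exp M) := by
    linarith [mul_le_mul_of_nonneg_left hsum (Real.exp_pos (κ * ε)).le]
  have hZ : 0 < Z := lt_of_lt_of_le (Real.exp_pos _) hlow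
  calc Real.log Z ≤ Real.log (Real.exp (κ * ε) * (2 * D.card) * Real.exp M) :=
        Real.log_le_log hZ (by linarith)
    _ = _ := by
        rw [Real.log_mul (by positivity) (by positivity), Real.log_mul (by positivity) (by positivity),
          Real.log_exp, Real.log_exp]
        ring

/-- A finite maximum exceeds the maximum of the means by at most the sum of the deviations. -/
theorem mean_sup_le {Ω α : Type*} [MeasurableSpace Ω] {μ : Measure Ω} [IsProbabilityMeasure μ]
    {D : Finset α} (hD : D.Nonempty) {X : α → Ω → ℝ} (hX : ∀ d, Integrable (X d) μ) {v : ℝ}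
    (hv : ∀ d, ∫ ω, |X d ω - ∫ ω', X d ω' ∂μ| ∂μ ≤ v) {Y : Ω → ℝ} (hY : Integrable Y μ)
    (h : ∀ ω, Y ω ≤ D.sup' hD fun d => X d ω) :
    ∫ ω, Y ω ∂μ ≤ D.sup' hD (fun d => ∫ ω, X d ω ∂μ) + D.card * v := by
  set M := D.sup' hD fun d => ∫ ω, X d ω ∂μ
  have hi : ∀ d, Integrable (fun ω => |X d ω - ∫ ω', X d ω' ∂μ|) μ := fun d =>
    ((hX d).sub (integrable_const _)).abs
  have hpt : ∀ ω, Y ω ≤ M + ∑ d ∈ D, |X d ω - ∫ ω', X d ω' ∂μ| := fun ω => by
    refine (h ω).trans (Finset.sup'_le _ _ fun d hd => ?_)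
    have h1 : ∫ ω', X d ω' ∂μ ≤ M := Finset.le_sup' (fun d => ∫ ω, X d ω ∂μ) hd
    have h2 : |X d ω - ∫ ω', X d ω' ∂μ| ≤ ∑ e ∈ D, |X e ω - ∫ ω', X e ω' ∂μ| :=
      Finset.single_le_sum (f := fun e => |X e ω - ∫ ω', X e ω' ∂μ|) (fun e _ => abs_nonneg _) hd
    linarith [le_abs_self (X d ω - ∫ ω', X d ω' ∂μ)]
  refine (integral_mono hY ((integrable_const M).fun_add (integrable_finsetSum _ fun d _ => hi d))
    hpt).trans ?_
  rw [integral_add (integrable_const M) (integrable_finsetSum _ fun d _ => hi d),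
    integral_finsetSum _ fun d _ => hi d, integral_const, probReal_univ, one_smul]
  have := Finset.sum_le_card_nsmul D _ v fun d _ => hv d
  rw [nsmul_eq_mul] at this
  linarith

/-- A finite grid of a box. -/
theorem exists_box_net (ι : Type*) [Fintype ι] (B : ℝ) {ε : ℝ} (hε : 0 < ε) :
    ∃ D : Finset (ι → ℝ), D.Nonempty ∧ (∀ d ∈ D, ∀ i, |d i| ≤ max B 0 + 1) ∧
      ∀ r : ι → ℝ, (∀ i, |r i| ≤ B) → ∃ d ∈ D, ∑ i, (r i - d i) ^ 2 ≤ ε := by
  classical
  obtain ⟨η, hη, hη1, hηε⟩ :
      ∃ η : ℝ, 0 < η ∧ η ≤ 1 ∧ (Fintype.card ι : ℝ) * η ^ 2 ≤ ε := by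
    refine ⟨min 1 (ε / (Fintype.card ι + 1)), lt_min one_pos (by positivity), min_le_left _ _, ?_⟩
    set η := min 1 (ε / (Fintype.card ι + 1))
    have h1 : η ≤ 1 := min_le_left _ _
    have h2 : η * (Fintype.card ι + 1) ≤ ε := (le_div_iff₀ (by positivity)).1 (min_le_right _ _)
    have h0 : 0 ≤ η := le_min zero_le_one (by positivity)
    nlinarith
  set m : ℕ := ⌈(max B 0) / η⌉₊ + 1
  set pts : Finset ℝ := (Finset.Icc (-(m : ℤ)) m).image fun k : ℤ => η * k
  refine ⟨(Fintype.piFinset fun _ => pts).filter (fun d => ∀ i, |d i| ≤ max B 0 + 1), ?_,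
    fun d hd => (Finset.mem_filter.1 hd).2, fun r hr => ?_⟩
  · exact ⟨fun _ => 0, Finset.mem_filter.2 ⟨Fintype.mem_piFinset.2 fun _ =>
      Finset.mem_image.2 ⟨0, by simp, by simp⟩,
      fun i => by simp; positivity⟩⟩
  refine ⟨fun i => η * ⌊r i / η⌋, Finset.mem_filter.2 ⟨Fintype.mem_piFinset.2 fun i =>
    Finset.mem_image.2 ⟨_, ?_, rfl⟩, fun i => ?_⟩, ?_⟩
  · have hb : |r i / η| ≤ (max B 0) / η := by
      rw [abs_div, abs_of_pos hη]
      exact div_le_div_of_nonneg_right ((hr i).trans (le_max_left _ _)) hη.le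
    have hc := Nat.le_ceil ((max B 0) / η)
    have h1 := Int.floor_le (r i / η)
    have h2 := Int.sub_one_lt_floor (r i / η)
    obtain ⟨h3, h4⟩ := abs_le.1 hb
    rw [Finset.mem_Icc]
    constructor
    · refine Int.cast_le (R := ℝ).1 ?_
      push_cast [m]
      linarith
    · refine Int.cast_le (R := ℝ).1 ?_
      push_cast [m]
      linarith
  · have h1 := Int.floor_le (r i / η)
    have h2 := Int.sub_one_lt_floor (r i / η)
    have e : η * (r i / η) = r i := by field_simp
    have h3 := mul_le_mul_of_nonneg_left h1 hη.le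
    have h4 := mul_le_mul_of_nonneg_left h2.le hη.le
    rw [e] at h3
    rw [mul_sub, e, mul_one] at h4
    obtain ⟨h5, h6⟩ := abs_le.1 ((hr i).trans (le_max_left B 0))
    rw [abs_le]
    constructor <;> linarith
  · refine (Finset.sum_le_card_nsmul _ _ (η ^ 2) fun i _ => ?_).trans (by simpa using hηε)
    have h1 := Int.floor_le (r i / η)
    have h2 := Int.sub_one_lt_floor (r i / η)
    have e : r i - η * ⌊r i / η⌋ = η * (r i / η - ⌊r i / η⌋) := by field_simp
    show (r i - η * ⌊r i / η⌋) ^ 2 ≤ η ^ 2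
    rw [e, mul_pow]
    exact mul_le_of_le_one_right (sq_nonneg _) (by nlinarith)

end Vale.Agent.P166.Pen
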