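import Vale.Agent.P166.Pen.Moments

/-!
Replacing a potential bounded above and at most quadratic below by a bounded one changes the free
energy per site by an amount that vanishes uniformly in the size.
-/

open MeasureTheory ProbabilityTheory Filter Topology Finset

namespace Vale.Agent.P166.Pen

open Vale.Agent.P166 Vale.Agent.P166.Nested

variable {K N : ℕ}

/-- The potential cut smoothly at depth `R`. -/
noncomputable def trunc (C R : ℝ) (f : (Fin K → ℝ) → ℝ) (y : Fin K → ℝ) : ℝ :=
  C - R * (1 - Real.exp (-((C - f y) / R)))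

theorem exp_neg_le_quad {t : ℝ} (ht : 0 ≤ t) : Real.exp (-t) ≤ 1 - t + t ^ 2 / 2 := by
  have h := Real.quadratic_le_exp_of_nonneg ht
  have h0 : 0 < 1 + t + t ^ 2 / 2 := by positivity
  rw [Real.exp_neg]
  refine (inv_anti₀ h0 h).trans ((inv_le_iff_one_le_mul₀ h0).2 ?_)
  nlinarith [sq_nonneg (t ^ 2)]

section

variable {C R : ℝ} {f : (Fin K → ℝ) → ℝ} (hR : 0 < R) (hup : ∀ y, f y ≤ C)
include hR

omit hR in
theorem continuous_trunc (hf : Continuous f) : Continuous (trunc C R f) := by
  unfold trunc; fun_prop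

include hup

theorem trunc_le (y : Fin K → ℝ) : trunc C R f y ≤ C := by
  have : Real.exp (-((C - f y) / R)) ≤ 1 :=
    Real.exp_le_one_iff.2 (neg_nonpos.2 (div_nonneg (sub_nonneg.2 (hup y)) hR.le))
  unfold trunc
  nlinarith

omit hup in
theorem le_trunc (y : Fin K → ℝ) : f y ≤ trunc C R f y := by
  have h := Real.add_one_le_exp (-((C - f y) / R))
  have e : R * ((C - f y) / R) = C - f y := by field_simp
  unfold trunc
  nlinarith

theorem abs_trunc_le (y : Fin K → ℝ) : |trunc C R f y| ≤ |C| + R := by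
  refine abs_le.2 ⟨?_, (trunc_le hR hup y).trans ((le_abs_self C).trans (by linarith))⟩
  unfold trunc
  nlinarith [Real.exp_pos (-((C - f y) / R)), neg_abs_le C]

/-- Pointwise gap of the weights. -/
theorem exp_trunc_sub_le (y : Fin K → ℝ) :
    Real.exp (trunc C R f y) - Real.exp (f y) ≤ 4 * Real.exp C / R := by
  set u := C - f y with hu
  have hu0 : 0 ≤ u := sub_nonneg.2 (hup y)
  set t := u / R with ht
  have ht0 : 0 ≤ t := div_nonneg hu0 hR.le
  have hq := exp_neg_le_quad ht0
  have htr : trunc C R f y = C - R * (1 - Real.exp (-t)) := rfl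
  have hRt : R * t = u := by rw [ht]; field_simp
  rcases le_or_gt t 1 with h1 | h1
  · have hD : trunc C R f y - f y ≤ u ^ 2 / (2 * R) := by
      rw [htr, show u ^ 2 / (2 * R) = R * (t ^ 2 / 2) by rw [ht]; field_simp]
      nlinarith [mul_le_mul_of_nonneg_left hq hR.le]
    have hval : trunc C R f y ≤ C - u / 2 := by
      rw [htr]
      nlinarith [mul_le_mul_of_nonneg_left hq hR.le, mul_le_mul_of_nonneg_left h1 hu0]
    have hgap : Real.exp (trunc C R f y) - Real.exp (f y)
        ≤ Real.exp (trunc C R f y) * (trunc C R f y - f y) := by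
      have h := Real.add_one_le_exp (f y - trunc C R f y)
      have e : Real.exp (f y) = Real.exp (trunc C R f y) * Real.exp (f y - trunc C R f y) := by
        rw [← Real.exp_add]; ring_nf
      nlinarith [Real.exp_pos (trunc C R f y)]
    refine hgap.trans ((mul_le_mul (Real.exp_le_exp.2 hval) hD
      (sub_nonneg.2 (le_trunc hR y)) (Real.exp_pos _).le).trans ?_)
    have h8 : u ^ 2 ≤ 8 * Real.exp (u / 2) := by
      have h := Real.pow_div_factorial_le_exp (u / 2) (by positivity) 2
      norm_num [Nat.factorial] at h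
      linarith [show (u / 2) ^ 2 / 2 = u ^ 2 / 8 by ring]
    rw [show C - u / 2 = C + -(u / 2) by ring, Real.exp_add, Real.exp_neg]
    rw [le_div_iff₀ hR]
    calc Real.exp C * (Real.exp (u / 2))⁻¹ * (u ^ 2 / (2 * R)) * R
        = Real.exp C * (u ^ 2 * (Real.exp (u / 2))⁻¹) / 2 := by field_simp
      _ ≤ Real.exp C * 8 / 2 := by
          gcongr
          rw [mul_inv_le_iff₀ (Real.exp_pos _)]
          exact h8
      _ = _ := by ring
  · have hhalf : Real.exp (-t) ≤ 1 / 2 := by
      rw [Real.exp_neg, one_div]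
      exact inv_anti₀ two_pos (by linarith [Real.add_one_le_exp t])
    have hval : trunc C R f y ≤ C + -(R / 2) := by rw [htr]; nlinarith
    refine (sub_le_self _ (Real.exp_pos _).le).trans ((Real.exp_le_exp.2 hval).trans ?_)
    rw [Real.exp_add, mul_comm 4, mul_div_assoc, Real.exp_neg]
    refine mul_le_mul_of_nonneg_left ?_ (Real.exp_pos _).le
    rw [le_div_iff₀ hR, inv_mul_le_iff₀ (Real.exp_pos _)]
    linarith [Real.add_one_le_exp (R / 2)]

end

/-- Fourth power of the fields of one row, on average over that row. -/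
theorem field_fourth {τ : ℝ} (hτ : 0 ≤ τ) (γ : Fin K → ℝ) (G : Fin N → Fin N → ℝ) (i : Fin N)
    (ω : Fin K → Fin N → ℝ) :
    Integrable (fun g => (∑ k, rowField τ γ (Function.update G i g) ω i k ^ 2) ^ 2) (gs N) ∧
      ∫ g, (∑ k, rowField τ γ (Function.update G i g) ω i k ^ 2) ^ 2 ∂gs N
        ≤ 64 * τ ^ 2 * K ^ 2 * xnorm ω ^ 2 := by
  set v : Fin K → Fin N → ℝ :=
    fun k b => (if (b : ℕ) < blk γ N k then ω k b / √(N : ℝ) else 0) * √τ
  have e : ∀ g k, rowField τ γ (Function.update G i g) ω i k = ∑ b, g b * v k b := fun g k => by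
    simp only [rowField, Function.update_self, v]
    exact Finset.sum_congr rfl fun b _ => by split_ifs <;> ring
  simp only [e]
  have hv : ∀ k, ∑ b, v k b ^ 2 ≤ τ * xnorm ω := fun k => by
    simp only [v, mul_pow, Real.sq_sqrt hτ, ← Finset.sum_mul]
    rw [mul_comm]
    refine mul_le_mul_of_nonneg_left ((sum_active_sq_le (blk γ N k) fun b => ω k b / √(N : ℝ)).trans ?_) hτ
    simp only [div_pow, Real.sq_sqrt (Nat.cast_nonneg N), ← Finset.sum_div, xnorm]
    exact div_le_div_of_nonneg_right (Finset.single_le_sum (f := fun k => ∑ b, ω k b ^ 2)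
      (fun k _ => Finset.sum_nonneg fun b _ => sq_nonneg _) (mem_univ k)) (Nat.cast_nonneg N)
  have hpt : ∀ g : Fin N → ℝ,
      (∑ k, (∑ b, g b * v k b) ^ 2) ^ 2 ≤ (K : ℝ) * ∑ k, (∑ b, g b * v k b) ^ 4 := fun g => by
    have h := sq_sum_le_card_mul_sum_sq (s := (univ : Finset (Fin K)))
      (f := fun k => (∑ b, g b * v k b) ^ 2)
    simpa [← pow_mul] using h
  have hsum : Integrable (fun g : Fin N → ℝ => (K : ℝ) * ∑ k, (∑ b, g b * v k b) ^ 4) (gs N) :=
    (integrable_finsetSum _ fun k _ => (lin_fourth (v k)).1).const_mul _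
  have hint : Integrable (fun g : Fin N → ℝ => (∑ k, (∑ b, g b * v k b) ^ 2) ^ 2) (gs N) :=
    hsum.mono' (Continuous.aestronglyMeasurable (by fun_prop)) (ae_of_all _ fun g => by
      rw [Real.norm_eq_abs, abs_of_nonneg (sq_nonneg _)]; exact hpt g)
  refine ⟨hint, (integral_mono hint hsum hpt).trans ?_⟩
  rw [integral_const_mul, integral_finsetSum _ fun k _ => (lin_fourth (v k)).1]
  have h2 : ∀ k, ∫ g, (∑ b, g b * v k b) ^ 4 ∂gs N ≤ 64 * (τ * xnorm ω) ^ 2 := fun k =>
    (lin_fourth (v k)).2.trans (mul_le_mul_of_nonneg_left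
      (pow_le_pow_left₀ (Finset.sum_nonneg fun b _ => sq_nonneg _) (hv k) 2) (by norm_num))
  refine (mul_le_mul_of_nonneg_left (Finset.sum_le_sum fun k _ => h2 k) (Nat.cast_nonneg K)).trans_eq ?_
  simp; ring

section

variable {τ C A : ℝ} (hτ : 0 ≤ τ) (hA : 0 ≤ A) (γ : Fin K → ℝ) {ψ : Fin N → (Fin K → ℝ) → ℝ}
  (hc : ∀ i, Continuous (ψ i)) (hup : ∀ i y, ψ i y ≤ C)
  (hlo : ∀ i y, -(A * (1 + ∑ k, y k ^ 2)) ≤ ψ i y)

/-- Weighted mean of a power of the squared norm of one field. -/
noncomputable def fieldMom (τ : ℝ) (ψ : Fin N → (Fin K → ℝ) → ℝ) (γ : Fin K → ℝ) (a : Fin N)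
    (p : ℕ) (G : Fin N → Fin N → ℝ) : ℝ :=
  (∫ ω, (∑ k, rowField τ γ G ω a k ^ 2) ^ p * Real.exp (eneV τ ψ γ G ω) ∂spinLaw K N)
    / ∫ ω, Real.exp (eneV τ ψ γ G ω) ∂spinLaw K N

include hc

theorem measurable_fieldMom (a : Fin N) (p : ℕ) : Measurable (fieldMom τ ψ γ a p) := by
  have h := continuous_eneV (τ := τ) γ hc
  refine Measurable.div
    (StronglyMeasurable.integral_prod_right' (ν := spinLaw K N)
      (f := fun q : (Fin N → Fin N → ℝ) × (Fin K → Fin N → ℝ) =>
        (∑ k, rowField τ γ q.1 q.2 a k ^ 2) ^ p * Real.exp (eneV τ ψ γ q.1 q.2)) ?_).measurable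
    (StronglyMeasurable.integral_prod_right' (ν := spinLaw K N)
      (f := fun q : (Fin N → Fin N → ℝ) × (Fin K → Fin N → ℝ) =>
        Real.exp (eneV τ ψ γ q.1 q.2)) ?_).measurable
  · refine (Continuous.mul (Continuous.pow (continuous_finsetSum _ fun k _ => Continuous.pow
      (continuous_finsetSum _ fun b _ => ?_) 2) p) (by fun_prop)).stronglyMeasurable
    split_ifs <;> fun_prop
  · exact (Real.continuous_exp.comp h).stronglyMeasurable

include hτ hA hup hlo

theorem integrable_field_pow (hN : 0 < N) (G : Fin N → Fin N → ℝ) (a : Fin N) {p : ℕ} (hp : p ≤ 2) :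
    Integrable (fun ω => (∑ k, rowField τ γ G ω a k ^ 2) ^ p * Real.exp (eneV τ ψ γ G ω))
      (spinLaw K N) := by
  have hiX := (xnorm_moment hτ hA γ hc hup hlo hN G).1
  have hiE := integrable_expV (τ := τ) γ hc hup G
  set s := τ * K * ∑ b, G a b ^ 2
  have hpt : ∀ ω, ∑ k, rowField τ γ G ω a k ^ 2 ≤ s * xnorm ω := fun ω => by
    have h1 : ∀ k, rowField τ γ G ω a k ^ 2 ≤ τ * (∑ b, G a b ^ 2) * xnorm ω := fun k => by
      simp only [rowField]
      refine (Finset.sum_mul_sq_le_sq_mul_sq _ _ _).trans ?_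
      simp only [mul_pow, Real.sq_sqrt hτ, ← Finset.mul_sum, xnorm]
      refine (mul_le_mul (sum_active_sq_le _ fun b => G a b / √(N : ℝ))
        (mul_le_mul_of_nonneg_left (Finset.single_le_sum (f := fun k => ∑ b, ω k b ^ 2)
          (fun k _ => Finset.sum_nonneg fun b _ => sq_nonneg _) (mem_univ k)) hτ)
        (by positivity) (by positivity)).trans_eq ?_
      simp only [div_pow, Real.sq_sqrt (Nat.cast_nonneg N), ← Finset.sum_div]
      ring
    refine (Finset.sum_le_sum fun k _ => h1 k).trans_eq ?_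
    simp [s]; ring
  have hs : 0 ≤ s := by positivity
  refine ((hiE.const_mul (1 + s ^ 2)).fun_add (hiX.const_mul (1 + s ^ 2))).mono'
    (Continuous.aestronglyMeasurable ((Continuous.pow (continuous_finsetSum _ fun k _ =>
      Continuous.pow (continuous_finsetSum _ fun b _ => by fun_prop) 2) p).mul
      (Real.continuous_exp.comp ((continuous_eneV γ hc).comp
        (Continuous.prodMk continuous_const continuous_id))))) (ae_of_all _ fun ω => ?_)
  have h0 : 0 ≤ ∑ k, rowField τ γ G ω a k ^ 2 := Finset.sum_nonneg fun k _ => sq_nonneg _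
  rw [Real.norm_eq_abs, abs_of_nonneg (by positivity), ← mul_assoc, ← add_mul]
  refine mul_le_mul_of_nonneg_right ((pow_le_pow_left₀ h0 (hpt ω) p).trans ?_) (Real.exp_pos _).le
  have hx := xnorm_nonneg ω
  interval_cases p <;> nlinarith [sq_nonneg (s * xnorm ω - 1), sq_nonneg s, sq_nonneg (xnorm ω)]

/-- The squared mean is at most the mean of squares. -/
theorem fieldMom_sq_le (hN : 0 < N) (G : Fin N → Fin N → ℝ) (a : Fin N) :
    fieldMom τ ψ γ a 1 G ^ 2 ≤ fieldMom τ ψ γ a 2 G := by
  set Z := ∫ ω, Real.exp (eneV τ ψ γ G ω) ∂spinLaw K N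
  have hZ : 0 < Z := (Real.exp_pos _).trans_le (expV_lower hτ hA γ hc hup hlo hN G)
  set m := fieldMom τ ψ γ a 1 G with hm
  have hi1 := integrable_field_pow hτ hA γ hc hup hlo hN G a (p := 1) (by norm_num)
  have hi2 := integrable_field_pow hτ hA γ hc hup hlo hN G a (p := 2) le_rfl
  have hiE := integrable_expV (τ := τ) γ hc hup G
  have h : ∫ ω, (2 * m * ((∑ k, rowField τ γ G ω a k ^ 2) ^ 1 * Real.exp (eneV τ ψ γ G ω))
      - m ^ 2 * Real.exp (eneV τ ψ γ G ω)) ∂spinLaw K N
      ≤ ∫ ω, (∑ k, rowField τ γ G ω a k ^ 2) ^ 2 * Real.exp (eneV τ ψ γ G ω) ∂spinLaw K N :=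
    integral_mono ((hi1.const_mul _).sub (hiE.const_mul _)) hi2 fun ω => by
      show 2 * m * ((∑ k, rowField τ γ G ω a k ^ 2) ^ 1 * Real.exp (eneV τ ψ γ G ω))
        - m ^ 2 * Real.exp (eneV τ ψ γ G ω) ≤ _
      nlinarith [mul_nonneg (Real.exp_pos (eneV τ ψ γ G ω)).le
        (sq_nonneg ((∑ k, rowField τ γ G ω a k ^ 2) - m))]
  rw [integral_sub (hi1.const_mul _) (hiE.const_mul _), integral_const_mul, integral_const_mul] at h
  have e : ∫ ω, (∑ k, rowField τ γ G ω a k ^ 2) ^ 1 * Real.exp (eneV τ ψ γ G ω) ∂spinLaw K N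
      = m * Z := by
    rw [hm, fieldMom, div_mul_cancel₀ _ hZ.ne']
  rw [e] at h
  rw [show fieldMom τ ψ γ a 2 G
    = (∫ ω, (∑ k, rowField τ γ G ω a k ^ 2) ^ 2 * Real.exp (eneV τ ψ γ G ω) ∂spinLaw K N) / Z
    from rfl, le_div_iff₀ hZ]
  nlinarith

/-- Bound on the mean field moment. -/
noncomputable def momBd (τ C A : ℝ) (K : ℕ) (G : Fin N → Fin N → ℝ) : ℝ :=
  64 * τ ^ 2 * (K : ℝ) ^ 2 * (128 * ((|C| + A + K) ^ 2 + (A * τ * K) ^ 2 * gnorm G ^ 2) + 128)

/-- Mean over one row of the field moments, for weights free of that row. -/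
theorem fieldMom_inner (hN : 0 < N) {a : Fin N} (hψ : ψ a = fun _ => 0)
    (G0 : Fin N → Fin N → ℝ) :
    Integrable (fun g => fieldMom τ ψ γ a 2 (Function.update G0 a g)) (gs N) ∧
      ∫ g, fieldMom τ ψ γ a 2 (Function.update G0 a g) ∂gs N ≤ momBd τ C A K G0 := by
  obtain ⟨hiX, hX⟩ := xnorm_moment hτ hA γ hc hup hlo hN G0
  set c2 := 64 * τ ^ 2 * (K : ℝ) ^ 2 with hc2
  set Z := ∫ ω, Real.exp (eneV τ ψ γ G0 ω) ∂spinLaw K N with hZdef
  have hZ : 0 < Z := (Real.exp_pos _).trans_le (expV_lower hτ hA γ hc hup hlo hN G0)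
  have hen : ∀ g ω, eneV τ ψ γ (Function.update G0 a g) ω = eneV τ ψ γ G0 ω := fun g ω => by
    refine Finset.sum_congr rfl fun i _ => ?_
    rcases eq_or_ne i a with rfl | hi
    · simp [hψ]
    · congr 1
      funext k
      simp [rowField, Function.update_of_ne hi]
  set W : (Fin N → ℝ) × (Fin K → Fin N → ℝ) → ℝ := fun q =>
    (∑ k, rowField τ γ (Function.update G0 a q.1) q.2 a k ^ 2) ^ 2
      * Real.exp (eneV τ ψ γ G0 q.2) with hWdef
  have hWc : Continuous W := by
    refine Continuous.mul (Continuous.pow (continuous_finsetSum _ fun k _ => Continuous.pow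
      (continuous_finsetSum _ fun b _ => ?_) 2) 2) (Real.continuous_exp.comp
        ((continuous_eneV γ hc).comp (Continuous.prodMk continuous_const continuous_snd)))
    simp only [Function.update_self]
    split_ifs <;> fun_prop
  have hW0 : ∀ q, 0 ≤ W q := fun q => mul_nonneg (sq_nonneg _) (Real.exp_pos _).le
  have h1 : ∀ ω, Integrable (fun g => W (g, ω)) (gs N) ∧
      ∫ g, W (g, ω) ∂gs N ≤ c2 * (xnorm ω ^ 2 * Real.exp (eneV τ ψ γ G0 ω)) := fun ω => by
    obtain ⟨hi, hb⟩ := field_fourth hτ γ G0 a ω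
    simp only [hWdef]
    refine ⟨hi.mul_const _, ?_⟩
    rw [integral_mul_const, ← mul_assoc]
    exact mul_le_mul_of_nonneg_right hb (Real.exp_pos _).le
  have hWi : Integrable W ((gs N).prod (spinLaw K N)) := by
    rw [integrable_prod_iff' hWc.aestronglyMeasurable]
    refine ⟨ae_of_all _ fun ω => (h1 ω).1, (hiX.const_mul c2).mono'
      (hWc.norm.aestronglyMeasurable.prod_swap.integral_prod_right') (ae_of_all _ fun ω => ?_)⟩
    rw [Real.norm_eq_abs, abs_of_nonneg (integral_nonneg fun g => norm_nonneg _)]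
    simp only [Real.norm_eq_abs, abs_of_nonneg (hW0 _)]
    exact (h1 ω).2
  have hF : ∀ g, fieldMom τ ψ γ a 2 (Function.update G0 a g)
      = (∫ ω, W (g, ω) ∂spinLaw K N) / Z := fun g => by
    simp only [fieldMom, hen, hWdef, hZdef]
  simp only [hF]
  refine ⟨hWi.integral_prod_left.div_const Z, ?_⟩
  rw [integral_div, integral_integral_swap hWi, div_le_iff₀ hZ]
  refine (integral_mono hWi.integral_prod_right (hiX.const_mul c2) fun ω => (h1 ω).2).trans ?_
  rw [integral_const_mul, momBd, ← hc2]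
  refine (mul_le_mul_of_nonneg_left hX (by positivity)).trans ?_
  rw [← mul_assoc]
  refine mul_le_mul_of_nonneg_right (mul_le_mul_of_nonneg_left ?_ (by positivity)) hZ.le
  nlinarith [sq_nonneg (|C| + A + K - A * τ * K * gnorm G0)]

/-- A row which does not enter the weights has bounded field moments on average. -/
theorem fieldMom_mean (hN : 0 < N) {a : Fin N} (hψ : ψ a = fun _ => 0) :
    Integrable (fieldMom τ ψ γ a 2) (rowsLaw N) ∧
      ∫ G, fieldMom τ ψ γ a 2 G ∂rowsLaw N ≤ 64 * τ ^ 2 * (K : ℝ) ^ 2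
        * (128 * ((|C| + A + K) ^ 2 + (A * τ * K) ^ 2 * 64) + 128) := by
  obtain ⟨n, rfl⟩ : ∃ n, N = n + 1 := Nat.exists_eq_succ_of_ne_zero hN.ne'
  set π := Measure.pi fun _ : Fin n => gs (n + 1)
  set e := MeasurableEquiv.piFinSuccAbove (fun _ : Fin (n + 1) => Fin (n + 1) → ℝ) a with hedef
  have he : MeasurePreserving e (rowsLaw (n + 1)) ((gs (n + 1)).prod π) :=
    measurePreserving_piFinSuccAbove (fun _ : Fin (n + 1) => gs (n + 1)) a
  have hins : ∀ g r, e.symm (g, r) = Fin.insertNth a g r := fun g r => by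
    rw [hedef]; rfl
  have hsymm : ∀ g r, e.symm (g, r) = Function.update (e.symm (0, r)) a g := fun g r => by
    rw [hins, hins, Fin.update_insertNth]
  have hmono : ∀ g r, gnorm (e.symm (0, r)) ≤ gnorm (e.symm (g, r)) := fun g r => by
    refine div_le_div_of_nonneg_right (Finset.sum_le_sum fun i _ => ?_) (sq_nonneg _)
    rcases eq_or_ne i a with rfl | hi
    · simp only [hins, Fin.insertNth_apply_same, Pi.zero_apply, zero_pow two_ne_zero,
        Finset.sum_const_zero]
      exact Finset.sum_nonneg fun b _ => sq_nonneg _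
    · rw [hsymm g r, Function.update_of_ne hi]
  set F := fun p : (Fin (n + 1) → ℝ) × (Fin n → Fin (n + 1) → ℝ) =>
    fieldMom τ ψ γ a 2 (e.symm p) with hFdef
  have hFm : Measurable F := (measurable_fieldMom γ hc a 2).comp e.symm.measurable
  have hF0 : ∀ p, 0 ≤ F p := fun p => div_nonneg
    (integral_nonneg fun ω => mul_nonneg (sq_nonneg _) (Real.exp_pos _).le)
    (integral_nonneg fun ω => (Real.exp_pos _).le)
  have hin : ∀ r, Integrable (fun g => F (g, r)) (gs (n + 1)) ∧
      ∀ g', ∫ g, F (g, r) ∂gs (n + 1) ≤ momBd τ C A K (e.symm (g', r)) := fun r => by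
    obtain ⟨hi, hb⟩ := fieldMom_inner hτ hA γ hc hup hlo hN hψ (e.symm (0, r))
    simp only [← hsymm] at hi hb
    refine ⟨hi, fun g' => hb.trans ?_⟩
    have := pow_le_pow_left₀ (gnorm_nonneg _) (hmono g' r) 2
    unfold momBd
    gcongr
  obtain ⟨hg2i, hg2⟩ := gnorm_sq_moment hN
  have hbd : Integrable (momBd τ C A K : (Fin (n + 1) → Fin (n + 1) → ℝ) → ℝ) (rowsLaw (n + 1)) :=
    ((((integrable_const _).fun_add (hg2i.const_mul _)).const_mul 128).fun_add
      (integrable_const 128)).const_mul _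
  have hbd' : Integrable (fun p => momBd τ C A K (e.symm p)) ((gs (n + 1)).prod π) :=
    he.symm.integrable_comp_of_integrable hbd
  have hcmp : ∀ r, Integrable (fun g' => momBd τ C A K (e.symm (g', r))) (gs (n + 1)) →
      ∫ g, F (g, r) ∂gs (n + 1) ≤ ∫ g', momBd τ C A K (e.symm (g', r)) ∂gs (n + 1) := fun r hr =>
    le_of_eq_of_le (by simp) (integral_mono (integrable_const _) hr fun g' => (hin r).2 g')
  have hFi : Integrable F ((gs (n + 1)).prod π) := by
    rw [integrable_prod_iff' hFm.aestronglyMeasurable]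
    refine ⟨ae_of_all _ fun r => (hin r).1, hbd'.integral_prod_right.mono'
      (hFm.norm.stronglyMeasurable.aestronglyMeasurable.prod_swap.integral_prod_right') ?_⟩
    filter_upwards [hbd'.prod_left_ae] with r hr
    rw [Real.norm_eq_abs, abs_of_nonneg (integral_nonneg fun g => norm_nonneg _)]
    simp only [Real.norm_eq_abs, abs_of_nonneg (hF0 _)]
    exact hcmp r hr
  have hback : fieldMom τ ψ γ a 2 = fun G => F (e G) := funext fun G => by
    simp only [hFdef, MeasurableEquiv.symm_apply_apply]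
  rw [hback]
  refine ⟨he.integrable_comp_of_integrable hFi, ?_⟩
  rw [he.integral_comp e.measurableEmbedding, integral_prod_symm F hFi]
  refine (integral_mono_ae hFi.integral_prod_right hbd'.integral_prod_right
    (hbd'.prod_left_ae.mono hcmp)).trans ?_
  rw [← integral_prod_symm (fun p => momBd τ C A K (e.symm p)) hbd',
    ← he.integral_comp e.measurableEmbedding]
  simp only [MeasurableEquiv.symm_apply_apply, momBd]
  rw [integral_const_mul, integral_add (((integrable_const _).fun_add (hg2i.const_mul _)).const_mul 128)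
    (integrable_const 128), integral_const_mul, integral_add (integrable_const _) (hg2i.const_mul _),
    integral_const_mul]
  simp only [integral_const, probReal_univ, one_smul]
  gcongr

end

end Vale.Agent.P166.Pen
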