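import Vale.Agent.P166.Nested.Singular
import Vale.Agent.P166.Nested.Reduce
import Vale.Agent.P166.Pen.Penalty

/-!
Coordinate types of the nested model, their self-overlaps, and the cost of large or nearly
singular self-overlaps.
-/

open MeasureTheory ProbabilityTheory Filter Topology Finset

namespace Vale.Agent.P166.Pen

open Vale.Agent.P166 Vale.Agent.P166.Nested

variable {K N : ℕ}

/-- Block lengths. -/
noncomputable def blk (γ : Fin K → ℝ) (N : ℕ) (k : Fin K) : ℕ := ⌊γ k * N⌋₊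

/-- The blocks present at a coordinate: its type. -/
noncomputable def typ (γ : Fin K → ℝ) (j : Fin N) : Finset (Fin K) :=
  univ.filter fun k => j.val < blk γ N k

/-- Index of a self-overlap entry. -/
abbrev OIdx (K : ℕ) : Type := Finset (Fin K) × Fin K × Fin K

/-- Self-overlaps of all types. -/
noncomputable def ovl (τ : ℝ) (γ : Fin K → ℝ) (ω : Fin K → Fin N → ℝ) (i : OIdx K) : ℝ :=
  if i.2.1 ∈ i.1 ∧ i.2.2 ∈ i.1 then
    τ / N * ∑ j ∈ univ.filter (fun j => typ γ j = i.1), ω i.2.1 j * ω i.2.2 j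
  else 0

/-- The cut. -/
def cutSet (B : ℝ) (K N : ℕ) : Set (Fin K → Fin N → ℝ) := {ω | ∑ k, ∑ j, ω k j ^ 2 ≤ B * N}

/-- A type with a positive fraction of the coordinates. -/
def Occupied (γ : Fin K → ℝ) (t : Finset (Fin K)) : Prop :=
  t.Nonempty ∧ ∀ k ∈ t, ∀ l ∉ t, γ l < γ k

/-- Symmetric tables supported on the occupied types. -/
def Clean (γ : Fin K → ℝ) (d : OIdx K → ℝ) : Prop :=
  (∀ t k l, d (t, k, l) = d (t, l, k)) ∧
    ∀ t k l, ¬(Occupied γ t ∧ k ∈ t ∧ l ∈ t) → d (t, k, l) = 0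

/-- Clean tables, bounded by `L`, which are definite on every occupied type with margin `κ`. -/
def GoodCentre (γ : Fin K → ℝ) (κ L : ℝ) (d : OIdx K → ℝ) : Prop :=
  Clean γ d ∧ (∀ i, |d i| ≤ L) ∧ ∀ t, Occupied γ t → ∀ v : Fin K → ℝ, (∀ k ∉ t, v k = 0) →
    κ * ∑ k, v k ^ 2 ≤ ∑ k, ∑ l, v k * v l * d (t, k, l)

/-- The nearest clean table. -/
noncomputable def tidy (γ : Fin K → ℝ) (d : OIdx K → ℝ) (i : OIdx K) : ℝ := by
  classical
  exact if Occupied γ i.1 ∧ i.2.1 ∈ i.1 ∧ i.2.2 ∈ i.1 then (d i + d (i.1, i.2.2, i.2.1)) / 2 else 0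

theorem clean_tidy (γ : Fin K → ℝ) (d : OIdx K → ℝ) : Clean γ (tidy γ d) := by
  classical
  refine ⟨fun t k l => ?_, fun t k l h => if_neg h⟩
  simp only [tidy]
  by_cases h : Occupied γ t ∧ k ∈ t ∧ l ∈ t
  · rw [if_pos h, if_pos ⟨h.1, h.2.2, h.2.1⟩, add_comm]
  · rw [if_neg h, if_neg fun h' => h ⟨h'.1, h'.2.2, h'.2.1⟩]

theorem abs_tidy_le {γ : Fin K → ℝ} {d : OIdx K → ℝ} {L : ℝ} (hL : 0 ≤ L) (h : ∀ i, |d i| ≤ L)
    (i : OIdx K) : |tidy γ d i| ≤ L := by
  classical
  simp only [tidy]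
  split_ifs
  · rw [abs_div, abs_two]
    have := abs_add_le (d i) (d (i.1, i.2.2, i.2.1))
    linarith [h i, h (i.1, i.2.2, i.2.1)]
  · simpa using hL

theorem typ_nonocc (γ : Fin K → ℝ) (j : Fin N) :
    typ γ j = ∅ ∨ Occupied γ (typ γ j) := by
  rcases (typ γ j).eq_empty_or_nonempty with h | h
  · exact Or.inl h
  refine Or.inr ⟨h, fun k hk l hl => ?_⟩
  simp only [typ, mem_filter, mem_univ, true_and, not_lt] at hk hl
  by_contra hc
  have := Nat.floor_le_floor (mul_le_mul_of_nonneg_right (not_lt.1 hc) (Nat.cast_nonneg N))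
  simp only [blk] at hk hl
  omega

theorem ovl_clean (γ : Fin K → ℝ) (τ : ℝ) (ω : Fin K → Fin N → ℝ) :
    Clean γ (ovl τ γ ω) := by
  refine ⟨fun t k l => ?_, fun t k l h => ?_⟩
  · simp only [ovl, and_comm (a := k ∈ t), mul_comm (ω k _)]
  · simp only [ovl]
    split_ifs with hkl
    · have hemp : (univ.filter fun j : Fin N => typ γ j = t) = ∅ := by
        refine filter_eq_empty_iff.2 fun j _ hj => ?_
        rcases typ_nonocc γ j with h0 | h0
        · rw [hj] at h0; simp [h0] at hkl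
        · exact h ⟨hj ▸ h0, hkl⟩
      simp [hemp]
    · rfl

theorem tidy_closer {γ : Fin K → ℝ} {r : OIdx K → ℝ} (hr : Clean γ r) (d : OIdx K → ℝ) :
    ∑ i, (r i - tidy γ d i) ^ 2 ≤ ∑ i, (r i - d i) ^ 2 := by
  classical
  set d' : OIdx K → ℝ := fun i => d (i.1, i.2.2, i.2.1)
  have hswap : ∑ i, (r i - d' i) ^ 2 = ∑ i, (r i - d i) ^ 2 := by
    refine Fintype.sum_equiv ((Equiv.refl _).prodCongr (Equiv.prodComm _ _)) _ _ fun i => ?_
    obtain ⟨t, k, l⟩ := i
    simp [d', hr.1 t k l]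
  have hpt : ∀ i, (r i - tidy γ d i) ^ 2 ≤ ((r i - d i) ^ 2 + (r i - d' i) ^ 2) / 2 := fun i => by
    obtain ⟨t, k, l⟩ := i
    simp only [tidy, d']
    split_ifs with h
    · nlinarith [sq_nonneg (d (t, k, l) - d (t, l, k))]
    · rw [hr.2 t k l h]
      nlinarith [sq_nonneg (d (t, k, l)), sq_nonneg (d (t, l, k))]
  refine (Finset.sum_le_sum fun i _ => hpt i).trans_eq ?_
  rw [← Finset.sum_div, Finset.sum_add_distrib, hswap]
  ring

theorem measurable_ovl (τ : ℝ) (γ : Fin K → ℝ) (i : OIdx K) :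
    Measurable fun ω : Fin K → Fin N → ℝ => ovl τ γ ω i := by
  unfold ovl
  split_ifs <;> fun_prop

theorem measurableSet_cut (B : ℝ) (K N : ℕ) : MeasurableSet (cutSet B K N) :=
  measurableSet_le (by fun_prop) measurable_const

theorem abs_ovl_le {τ : ℝ} (hτ : 0 ≤ τ) (γ : Fin K → ℝ) {B : ℝ} (hN : 0 < N)
    {ω : Fin K → Fin N → ℝ} (hω : ω ∈ cutSet B K N) (i : OIdx K) : |ovl τ γ ω i| ≤ τ * B := by
  have hN' : (0 : ℝ) < N := Nat.cast_pos.2 hN
  have hB : 0 ≤ B := by
    have h0 : 0 ≤ ∑ k, ∑ j, ω k j ^ 2 :=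
      Finset.sum_nonneg fun k _ => Finset.sum_nonneg fun j _ => sq_nonneg _
    nlinarith [show ∑ k, ∑ j, ω k j ^ 2 ≤ B * N from hω]
  obtain ⟨t, k, l⟩ := i
  simp only [ovl]
  split_ifs
  swap; · simp; positivity
  rw [abs_mul, abs_of_nonneg (by positivity : (0 : ℝ) ≤ τ / N), div_mul_eq_mul_div,
    div_le_iff₀ hN', mul_assoc]
  refine mul_le_mul_of_nonneg_left ((abs_sum_le_sum_abs _ _).trans ?_) hτ
  refine le_trans ?_ hω
  have h1 : ∀ k', ∑ j, ω k' j ^ 2 ≤ ∑ k, ∑ j, ω k j ^ 2 := fun k' => Finset.single_le_sum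
    (f := fun k => ∑ j, ω k j ^ 2) (fun k _ => Finset.sum_nonneg fun j _ => sq_nonneg _)
    (mem_univ k')
  calc ∑ j ∈ univ.filter (fun j => typ γ j = t), |ω k j * ω l j|
      ≤ ∑ j, (ω k j ^ 2 + ω l j ^ 2) / 2 := by
        refine (Finset.sum_le_sum_of_subset_of_nonneg (subset_univ _)
          fun j _ _ => abs_nonneg _).trans (Finset.sum_le_sum fun j _ => ?_)
        rw [abs_mul]
        nlinarith [sq_nonneg (|ω k j| - |ω l j|), sq_abs (ω k j), sq_abs (ω l j)]
    _ ≤ _ := by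
        rw [← Finset.sum_div, Finset.sum_add_distrib]
        linarith [h1 k, h1 l]

theorem measurePreserving_swap_pi (K N : ℕ) :
    MeasurePreserving (fun (ω : Fin K → Fin N → ℝ) j k => ω k j)
      (Measure.pi fun _ : Fin K => gs N) (Measure.pi fun _ : Fin N => gs K) := by
  have h2 : ∀ A B : ℕ, MeasurePreserving (MeasurableEquiv.curry (Fin A) (Fin B) ℝ)
      (Measure.pi fun _ : Fin A × Fin B => gaussianReal 0 1)
      (Measure.pi fun _ : Fin A => gs B) := fun A B => by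
    refine ⟨MeasurableEquiv.measurable _, ?_⟩
    have := Measure.infinitePi_map_curry fun (_ : Fin A) (_ : Fin B) => gaussianReal 0 1
    simpa [Measure.infinitePi_eq_pi, gs] using this
  have h1 : MeasurePreserving (fun (g : Fin K × Fin N → ℝ) (p : Fin N × Fin K) => g p.swap)
      (Measure.pi fun _ : Fin K × Fin N => gaussianReal 0 1)
      (Measure.pi fun _ : Fin N × Fin K => gaussianReal 0 1) :=
    P157.mp_comp (gaussianReal 0 1) Prod.swap_injective
  exact ((h2 N K).comp h1).comp (h2 K N).symm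

theorem cut_tail (B : ℝ) :
    (Measure.pi fun _ : Fin K => gs N).real (cutSet B K N)ᶜ
      ≤ (chi (1 / 4) ^ K * Real.exp (-(B / 4))) ^ N := by
  set π := Measure.pi fun _ : Fin K => gs N
  obtain ⟨hi1, he1⟩ := integral_exp_sq (show (1 / 4 : ℝ) < 1 / 2 by norm_num)
  have hiN : Integrable (fun h : Fin N → ℝ => ∏ j, Real.exp (1 / 4 * h j ^ 2)) (gs N) :=
    Integrable.fintype_prod fun _ => hi1
  have hi : Integrable (fun ω : Fin K → Fin N → ℝ => ∏ k, ∏ j, Real.exp (1 / 4 * ω k j ^ 2)) π :=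
    Integrable.fintype_prod (f := fun _ (h : Fin N → ℝ) => ∏ j, Real.exp (1 / 4 * h j ^ 2))
      fun _ => hiN
  have he : ∫ ω, ∏ k, ∏ j, Real.exp (1 / 4 * ω k j ^ 2) ∂π = (chi (1 / 4) ^ K) ^ N := by
    rw [integral_fintype_prod_eq_prod (f := fun _ (h : Fin N → ℝ) =>
      ∏ j, Real.exp (1 / 4 * h j ^ 2)), Finset.prod_const, gs,
      integral_fintype_prod_eq_prod (f := fun _ (x : ℝ) => Real.exp (1 / 4 * x ^ 2))]
    simp only [he1, Finset.prod_const, Finset.card_univ, Fintype.card_fin, ← pow_mul]; rw [mul_comm]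
  have hmark := mul_meas_ge_le_integral_of_nonneg (ae_of_all π fun ω : Fin K → Fin N → ℝ =>
    Finset.prod_nonneg fun k _ => Finset.prod_nonneg fun j _ => (Real.exp_pos _).le) hi
    (Real.exp (B / 4 * N))
  have hsub : (cutSet B K N)ᶜ ⊆ {ω | Real.exp (B / 4 * N)
      ≤ ∏ k, ∏ j, Real.exp (1 / 4 * ω k j ^ 2)} := fun ω hω => by
    simp only [Set.mem_ofPred_eq, ← Real.exp_sum, Real.exp_le_exp, ← Finset.mul_sum]
    linarith [show B * N < ∑ k, ∑ j, ω k j ^ 2 from not_le.1 hω]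
  rw [he] at hmark
  rw [mul_pow, ← Real.exp_nat_mul, show (N : ℝ) * -(B / 4) = -(B / 4 * N) by ring, Real.exp_neg,
    ← div_eq_mul_inv, le_div_iff₀ (Real.exp_pos _), mul_comm]
  exact (mul_le_mul_of_nonneg_left (measureReal_mono hsub) (Real.exp_pos _).le).trans hmark

/-- A nearly singular self-overlap of a type is exponentially unlikely. -/
theorem singular_tail (γ : Fin K → ℝ) (t : Finset (Fin K)) {v : Fin K → ℝ}
    (hv1 : ∑ k, v k ^ 2 = 1) {s : ℝ} (hs : 0 ≤ s) (y : ℝ) :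
    (Measure.pi fun _ : Fin K => gs N).real
        {ω | ∑ j ∈ univ.filter (fun j => typ γ j = t), (∑ k, v k * ω k j) ^ 2 ≤ y}
      ≤ Real.exp (s * y) * chi (-s) ^ (univ.filter fun j : Fin N => typ γ j = t).card := by
  set J := univ.filter fun j : Fin N => typ γ j = t
  set π := Measure.pi fun _ : Fin K => gs N
  set F : Fin N → (Fin K → ℝ) → ℝ :=
    fun j h => if j ∈ J then Real.exp (-s * (∑ k, h k * v k) ^ 2) else 1
  obtain ⟨hi1, he1⟩ := exp_sq_lin v hv1 (show -s < 1 / 2 by linarith)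
  have hF : ∀ j, Integrable (F j) (gs K) := fun j => by
    by_cases h : j ∈ J <;> simp only [F, h, if_true, if_false]
    · exact hi1
    · exact integrable_const _
  have hswap := measurePreserving_swap_pi K N
  have hi' : Integrable (fun G : Fin N → Fin K → ℝ => ∏ j, F j (G j))
      (Measure.pi fun _ : Fin N => gs K) := Integrable.fintype_prod hF
  have he' : ∫ G : Fin N → Fin K → ℝ, ∏ j, F j (G j) ∂Measure.pi (fun _ : Fin N => gs K)
      = chi (-s) ^ J.card := by
    rw [integral_fintype_prod_eq_prod (f := F)]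
    have : ∀ j, ∫ h, F j h ∂gs K = if j ∈ J then chi (-s) else 1 := fun j => by
      by_cases h : j ∈ J
      · simp only [F, h, if_true]; exact he1
      · simp [F, h]
    simp only [this, Finset.prod_ite_mem, univ_inter, Finset.prod_const]
  have hi : Integrable (fun ω : Fin K → Fin N → ℝ => ∏ j, F j fun k => ω k j) π :=
    hswap.integrable_comp_of_integrable hi'
  have he : ∫ ω, ∏ j, F j (fun k => ω k j) ∂π = chi (-s) ^ J.card := by
    rw [← he', ← hswap.map_eq, integral_map hswap.measurable.aemeasurable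
      (by rw [hswap.map_eq]; exact hi'.aestronglyMeasurable)]
  have hFpos : ∀ j h, 0 ≤ F j h := fun j h => by
    simp only [F]; split_ifs <;> positivity
  have hmark := mul_meas_ge_le_integral_of_nonneg (ae_of_all π fun ω : Fin K → Fin N → ℝ =>
    Finset.prod_nonneg fun j _ => hFpos j _) hi (Real.exp (-(s * y)))
  have hsub : {ω : Fin K → Fin N → ℝ | ∑ j ∈ J, (∑ k, v k * ω k j) ^ 2 ≤ y}
      ⊆ {ω | Real.exp (-(s * y)) ≤ ∏ j, F j fun k => ω k j} := fun ω hω => by
    have e : ∏ j, F j (fun k => ω k j) = ∏ j ∈ J, Real.exp (-s * (∑ k, v k * ω k j) ^ 2) := by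
      simp only [F, Finset.prod_ite_mem, univ_inter]
      exact Finset.prod_congr rfl fun j _ => by simp only [mul_comm]
    show _ ≤ ∏ j, F j (fun k => ω k j)
    rw [e, ← Real.exp_sum, Real.exp_le_exp, ← Finset.mul_sum]
    have := mul_le_mul_of_nonneg_left hω hs
    linarith
  rw [he, mul_comm, ← le_div_iff₀ (Real.exp_pos _)] at hmark
  refine ((measureReal_mono hsub).trans hmark).trans_eq ?_
  rw [Real.exp_neg, div_inv_eq_mul, mul_comm]

/-- Occupied types have a positive fraction of the coordinates. -/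
theorem occupied_count {γ : Fin K → ℝ} (hγ : ∀ k, 0 < γ k ∧ γ k ≤ 1) :
    ∃ a : ℝ, 0 < a ∧ ∀ᶠ N : ℕ in atTop, ∀ t, Occupied γ t →
      a * N ≤ ((univ.filter fun j : Fin N => typ γ j = t).card : ℝ) := by
  classical
  have hone : ∀ t, ∃ a : ℝ, 0 < a ∧ ∀ᶠ N : ℕ in atTop, Occupied γ t →
      a * N ≤ ((univ.filter fun j : Fin N => typ γ j = t).card : ℝ) := fun t => by
    by_cases ht : Occupied γ t
    swap; · exact ⟨1, one_pos, Eventually.of_forall fun N h => absurd h ht⟩
    set lo := (insert (0 : ℝ) (tᶜ.image γ)).max' ⟨0, mem_insert_self _ _⟩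
    obtain ⟨k0, hk0, hmin⟩ := t.exists_min_image γ ht.1
    have hlo0 : 0 ≤ lo := Finset.le_max' _ _ (mem_insert_self _ _)
    have hlt : lo < γ k0 := by
      refine (Finset.max'_lt_iff _ _).2 fun x hx => ?_
      rcases mem_insert.1 hx with rfl | hx
      · exact (hγ k0).1
      · obtain ⟨l, hl, rfl⟩ := mem_image.1 hx
        exact ht.2 k0 hk0 l (mem_compl.1 hl)
    refine ⟨(γ k0 - lo) / 2, by linarith, ?_⟩
    filter_upwards [eventually_ge_atTop ⌈4 / (γ k0 - lo)⌉₊] with N hN _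
    have hN' : 4 ≤ (γ k0 - lo) * N := by
      have := (div_le_iff₀ (sub_pos.2 hlt)).1 ((Nat.le_ceil _).trans (Nat.cast_le.2 hN))
      linarith
    set a := ⌈lo * (N : ℝ)⌉₊
    set b := blk γ N k0
    have hb : b ≤ N := Nat.floor_le_of_le (mul_le_of_le_one_left (Nat.cast_nonneg N) (hγ k0).2)
    have hsub : (univ.filter fun j : Fin N => a ≤ j.val ∧ j.val < b)
        ⊆ univ.filter fun j : Fin N => typ γ j = t := fun j hj => by
      simp only [mem_filter, mem_univ, true_and] at hj ⊢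
      ext k
      simp only [typ, mem_filter, mem_univ, true_and]
      constructor
      · intro hk
        by_contra hkt
        have h1 : γ k ≤ lo := Finset.le_max' _ _ (mem_insert_of_mem
          (mem_image_of_mem γ (mem_compl.2 hkt)))
        have h2 : blk γ N k ≤ a := (Nat.floor_le_floor (mul_le_mul_of_nonneg_right h1
          (Nat.cast_nonneg N))).trans (Nat.floor_le_ceil _)
        omega
      · intro hk
        exact hj.2.trans_le (Nat.floor_le_floor (mul_le_mul_of_nonneg_right (hmin k hk)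
          (Nat.cast_nonneg N)))
    have hcard : (univ.filter fun j : Fin N => a ≤ j.val ∧ j.val < b).card = b - a := by
      rw [← Finset.card_map Fin.valEmbedding, ← Nat.card_Ico a b]
      congr 1
      ext x
      simp only [Finset.mem_map, mem_filter, mem_univ, true_and, Fin.valEmbedding_apply, mem_Ico]
      exact ⟨fun ⟨j, hj, e⟩ => e ▸ hj, fun hx => ⟨⟨x, by omega⟩, hx, rfl⟩⟩
    have h3 : (b : ℝ) - a ≤ ((b - a : ℕ) : ℝ) := by
      rcases le_total a b with h | h
      · rw [Nat.cast_sub h]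
      · rw [Nat.sub_eq_zero_of_le h, Nat.cast_zero]; linarith [(Nat.cast_le (α := ℝ)).2 h]
    have h4 : γ k0 * N - 1 < (b : ℝ) := Nat.sub_one_lt_floor _
    have h5 : (a : ℝ) < lo * N + 1 := Nat.ceil_lt_add_one (by positivity)
    have h6 := (Nat.cast_le (α := ℝ)).2 (hcard ▸ Finset.card_le_card hsub)
    linarith
  choose a ha hev using hone
  refine ⟨univ.inf' ⟨∅, mem_univ _⟩ a, (Finset.lt_inf'_iff _).2 fun t _ => ha t, ?_⟩
  filter_upwards [eventually_all.2 hev] with N hN t ht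
  exact (mul_le_mul_of_nonneg_right (Finset.inf'_le a (mem_univ t)) (Nat.cast_nonneg N)).trans
    (hN t ht)

end Vale.Agent.P166.Pen
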